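import Mathlib

set_option autoImplicit false
open MeasureTheory ProbabilityTheory Set Filter Topology
open scoped NNReal ENNReal

namespace Crest.Agent.Lib.Ehrhard

/-- the standard normal law on `ℝ` -/
noncomputable abbrev γ : Measure ℝ := gaussianReal 0 1

/-- standard normal density -/
noncomputable def phi (x : ℝ) : ℝ := (Real.sqrt (2 * Real.pi))⁻¹ * Real.exp (-x ^ 2 / 2)

lemma phi_eq : phi = gaussianPDFReal 0 1 := by
  ext x; simp [phi, gaussianPDFReal]

lemma c_pos : 0 < (Real.sqrt (2 * Real.pi))⁻¹ := by positivity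

lemma phi_pos (x : ℝ) : 0 < phi x := by unfold phi; positivity

lemma phi_nonneg (x : ℝ) : 0 ≤ phi x := (phi_pos x).le

lemma continuous_phi : Continuous phi := by unfold phi; fun_prop

lemma sqrt_two_pi_ge : (1:ℝ) ≤ Real.sqrt (2 * Real.pi) := by
  rw [Real.one_le_sqrt]; linarith [Real.pi_gt_three]

lemma c_le_one : (Real.sqrt (2 * Real.pi))⁻¹ ≤ 1 := inv_le_one_of_one_le₀ sqrt_two_pi_ge

lemma phi_le_one (x : ℝ) : phi x ≤ 1 := by
  unfold phi
  have h1 : Real.exp (-x ^ 2 / 2) ≤ 1 := Real.exp_le_one_iff.2 (by nlinarith [sq_nonneg x])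
  calc _ ≤ 1 * 1 := mul_le_mul c_le_one h1 (Real.exp_pos _).le zero_le_one
    _ = 1 := one_mul 1

lemma abs_mul_phi_le (x : ℝ) : |x| * phi x ≤ 1 := by
  unfold phi
  have h1 : |x| * Real.exp (-x ^ 2 / 2) ≤ 1 := by
    have h2 : |x| ≤ Real.exp (x ^ 2 / 2) := by
      have := Real.add_one_le_exp (x ^ 2 / 2)
      have h3 : x ^ 2 = |x| ^ 2 := (sq_abs x).symm
      nlinarith [sq_nonneg (|x| - 1)]
    have h4 : Real.exp (-x ^ 2 / 2) = (Real.exp (x ^ 2 / 2))⁻¹ := by
      rw [← Real.exp_neg]; ring_nf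
    rw [h4]
    exact mul_inv_le_one_of_le₀ h2 (Real.exp_pos _).le
  calc |x| * ((Real.sqrt (2 * Real.pi))⁻¹ * Real.exp (-x ^ 2 / 2))
      = (Real.sqrt (2 * Real.pi))⁻¹ * (|x| * Real.exp (-x ^ 2 / 2)) := by ring
    _ ≤ 1 * 1 := mul_le_mul c_le_one h1 (by positivity) zero_le_one
    _ = 1 := one_mul 1

lemma hasDerivAt_phi (x : ℝ) : HasDerivAt phi (-x * phi x) x := by
  unfold phi
  have h : HasDerivAt (fun x : ℝ => -x ^ 2 / 2) (-x) x :=
    (((hasDerivAt_pow 2 x).fun_neg).div_const 2).congr_deriv (by simp; ring)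
  exact ((h.exp).const_mul ((Real.sqrt (2 * Real.pi))⁻¹)).congr_deriv (by ring)

lemma integrable_phi : Integrable phi := by rw [phi_eq]; exact integrable_gaussianPDFReal 0 1

lemma integral_phi : ∫ x, phi x = 1 := by
  rw [phi_eq]; exact integral_gaussianPDFReal_eq_one 0 one_ne_zero

lemma phi_neg (x : ℝ) : phi (-x) = phi x := by unfold phi; simp

lemma phi_add (b a : ℝ) : phi (b + a) = phi b * Real.exp (-(a * b) - a ^ 2 / 2) := by
  unfold phi
  rw [mul_assoc, ← Real.exp_add]
  congr 2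
  ring

/-- standard normal distribution function -/
noncomputable def Phi (x : ℝ) : ℝ := ∫ t in Iic x, phi t

lemma Phi_eq_add (x : ℝ) : Phi x = Phi 0 + ∫ t in (0:ℝ)..x, phi t := by
  unfold Phi
  rw [← intervalIntegral.integral_Iic_sub_Iic integrable_phi.integrableOn integrable_phi.integrableOn]
  ring

lemma hasDerivAt_Phi (x : ℝ) : HasDerivAt Phi (phi x) x := by
  have h1 : Phi = fun x => Phi 0 + ∫ t in (0:ℝ)..x, phi t := by ext x; exact Phi_eq_add x
  rw [h1]
  exact (intervalIntegral.integral_hasDerivAt_right (continuous_phi.intervalIntegrable _ _)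
    (continuous_phi.stronglyMeasurableAtFilter _ _) continuous_phi.continuousAt).const_add _

lemma hasStrictDerivAt_Phi (x : ℝ) : HasStrictDerivAt Phi (phi x) x :=
  hasStrictDerivAt_of_hasDerivAt_of_continuousAt
    (Eventually.of_forall fun y => hasDerivAt_Phi y) continuous_phi.continuousAt

lemma continuous_Phi : Continuous Phi :=
  continuous_iff_continuousAt.2 fun x => (hasDerivAt_Phi x).continuousAt

lemma strictMono_Phi : StrictMono Phi :=
  strictMono_of_hasDerivAt_pos (fun x => hasDerivAt_Phi x) phi_pos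

lemma Phi_add_compl (x : ℝ) : Phi x + ∫ t in Ioi x, phi t = 1 := by
  unfold Phi
  rw [← integral_phi, ← compl_Iic]
  exact integral_add_compl measurableSet_Iic integrable_phi

lemma Phi_neg (x : ℝ) : Phi (-x) = 1 - Phi x := by
  have h : ∫ t in Ioi x, phi t = Phi (-x) := by
    unfold Phi
    rw [← integral_comp_neg_Ioi x phi]
    simp only [phi_neg]
  linarith [Phi_add_compl x]

lemma Phi_nonneg (x : ℝ) : 0 ≤ Phi x := integral_nonneg fun t => phi_nonneg t

lemma Phi_pos (x : ℝ) : 0 < Phi x := lt_of_le_of_lt (Phi_nonneg (x - 1)) (strictMono_Phi (by linarith))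

lemma Phi_lt_one (x : ℝ) : Phi x < 1 := by
  have := Phi_pos (-x); rw [Phi_neg] at this; linarith

lemma tendsto_Phi_atTop : Tendsto Phi atTop (𝓝 1) := by
  have h := (aecover_Iic (μ := (volume : Measure ℝ)) tendsto_id).integral_tendsto_of_countably_generated
    integrable_phi
  rw [integral_phi] at h
  exact h

lemma tendsto_Phi_atBot : Tendsto Phi atBot (𝓝 0) := by
  have h := tendsto_Phi_atTop.comp tendsto_neg_atBot_atTop
  have h2 : Phi = fun x => 1 - (Phi ∘ Neg.neg) x := by
    ext x; simp [Phi_neg]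
  rw [h2]
  have := h.const_sub 1
  simpa using this

lemma Phi_surj {p : ℝ} (h0 : 0 < p) (h1 : p < 1) : ∃ x, Phi x = p := by
  have := mem_range_of_exists_le_of_exists_ge continuous_Phi (c := p)
    ((tendsto_Phi_atBot.eventually (gt_mem_nhds h0)).exists.imp fun x hx => hx.le)
    ((tendsto_Phi_atTop.eventually (lt_mem_nhds h1)).exists.imp fun x hx => hx.le)
  exact this

/-- inverse of `Phi` -/
noncomputable def Psi (p : ℝ) : ℝ := Function.invFun Phi p

@[simp] lemma Psi_Phi (x : ℝ) : Psi (Phi x) = x :=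
  Function.leftInverse_invFun strictMono_Phi.injective x

lemma Phi_Psi {p : ℝ} (h0 : 0 < p) (h1 : p < 1) : Phi (Psi p) = p :=
  Function.invFun_eq (Phi_surj h0 h1)

lemma Psi_le_iff {p x : ℝ} (h0 : 0 < p) (h1 : p < 1) : Psi p ≤ x ↔ p ≤ Phi x := by
  conv_rhs => rw [← Phi_Psi h0 h1]
  exact strictMono_Phi.le_iff_le.symm

lemma le_Psi_iff {p x : ℝ} (h0 : 0 < p) (h1 : p < 1) : x ≤ Psi p ↔ Phi x ≤ p := by
  conv_rhs => rw [← Phi_Psi h0 h1]
  exact strictMono_Phi.le_iff_le.symm

lemma hasStrictDerivAt_Psi (a : ℝ) : HasStrictDerivAt Psi (phi a)⁻¹ (Phi a) :=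
  (hasStrictDerivAt_Phi a).to_local_left_inverse (phi_pos a).ne' (Eventually.of_forall Psi_Phi)

lemma hasDerivAt_Psi {p : ℝ} (h0 : 0 < p) (h1 : p < 1) : HasDerivAt Psi (phi (Psi p))⁻¹ p := by
  have := (hasStrictDerivAt_Psi (Psi p)).hasDerivAt
  rwa [Phi_Psi h0 h1] at this

lemma continuousAt_Psi {p : ℝ} (h0 : 0 < p) (h1 : p < 1) : ContinuousAt Psi p :=
  (hasDerivAt_Psi h0 h1).continuousAt

/-- tangent line inequality for the concave function `p ↦ Phi (Psi p + a)`, `a ≥ 0` -/
lemma Phi_add_le (a b b0 : ℝ) (ha : 0 ≤ a) :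
    Phi (b + a) ≤ Phi (b0 + a) + Real.exp (-(a * b0) - a ^ 2 / 2) * (Phi b - Phi b0) := by
  set r := Real.exp (-(a * b0) - a ^ 2 / 2) with hr
  set K : ℝ → ℝ := fun b => Phi (b + a) - r * Phi b with hK
  have hd : ∀ x, HasDerivAt K (phi x * (Real.exp (-(a * x) - a ^ 2 / 2) - r)) x := by
    intro x
    have h1 : HasDerivAt (fun x => Phi (x + a)) (phi (x + a)) x := by
      simpa using (hasDerivAt_Phi (x + a)).comp_add_const x a
    have h2 := (hasDerivAt_Phi x).const_mul r
    exact (h1.fun_sub h2).congr_deriv (by rw [phi_add]; ring)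
  have hc : Continuous K := continuous_iff_continuousAt.2 fun x => (hd x).continuousAt
  have key : K b ≤ K b0 := by
    rcases le_total b b0 with h | h
    · have : MonotoneOn K (Iic b0) := by
        refine monotoneOn_of_deriv_nonneg (convex_Iic b0) hc.continuousOn
          (fun x _ => (hd x).differentiableAt.differentiableWithinAt) ?_
        intro x hx
        rw [interior_Iic] at hx
        rw [(hd x).deriv]
        refine mul_nonneg (phi_nonneg x) (sub_nonneg.2 ?_)
        rw [hr]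
        apply Real.exp_le_exp.2
        have := mul_le_mul_of_nonneg_left (le_of_lt hx) ha
        simp only [mem_Iio] at hx
        nlinarith
      exact this h (le_refl b0) h
    · have : AntitoneOn K (Ici b0) := by
        refine antitoneOn_of_deriv_nonpos (convex_Ici b0) hc.continuousOn
          (fun x _ => (hd x).differentiableAt.differentiableWithinAt) ?_
        intro x hx
        rw [interior_Ici] at hx
        rw [(hd x).deriv]
        refine mul_nonpos_of_nonneg_of_nonpos (phi_nonneg x) (sub_nonpos.2 ?_)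
        rw [hr]
        apply Real.exp_le_exp.2
        simp only [mem_Ioi] at hx
        nlinarith
      exact this (le_refl b0) h h
  simp only [hK] at key
  linarith

/-! ### Gaussian mean `Psi (E Phi X)` -/

variable {Ω : Type*} [MeasurableSpace Ω]

lemma integrable_Phi_comp (μ : Measure Ω) [IsFiniteMeasure μ] {X : Ω → ℝ} (hX : AEMeasurable X μ) :
    Integrable (fun ω => Phi (X ω)) μ := by
  refine Integrable.mono' (integrable_const (1:ℝ))
    (continuous_Phi.measurable.comp_aemeasurable hX).aestronglyMeasurable ?_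
  refine Eventually.of_forall fun ω => ?_
  rw [Real.norm_of_nonneg (Phi_nonneg _)]
  exact (Phi_lt_one _).le

lemma integral_Phi_pos (μ : Measure Ω) [IsProbabilityMeasure μ] {X : Ω → ℝ} (hX : AEMeasurable X μ) :
    0 < ∫ ω, Phi (X ω) ∂μ := by
  refine (integral_pos_iff_support_of_nonneg (fun ω => Phi_nonneg _) (integrable_Phi_comp μ hX)).2 ?_
  have : Function.support (fun ω => Phi (X ω)) = univ := by
    ext ω; simp [(Phi_pos (X ω)).ne']
  rw [this]; simp

lemma integral_Phi_lt_one (μ : Measure Ω) [IsProbabilityMeasure μ] {X : Ω → ℝ} (hX : AEMeasurable X μ) :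
    ∫ ω, Phi (X ω) ∂μ < 1 := by
  have h := integral_Phi_pos μ hX.neg
  simp only [Pi.neg_apply, Phi_neg] at h
  rw [integral_sub (integrable_const _) (integrable_Phi_comp μ hX)] at h
  simp at h
  linarith

/-- `Psi (E Phi X)` -/
noncomputable def gm (μ : Measure Ω) (X : Ω → ℝ) : ℝ := Psi (∫ ω, Phi (X ω) ∂μ)

lemma Phi_gm (μ : Measure Ω) [IsProbabilityMeasure μ] {X : Ω → ℝ} (hX : AEMeasurable X μ) :
    Phi (gm μ X) = ∫ ω, Phi (X ω) ∂μ :=
  Phi_Psi (integral_Phi_pos μ hX) (integral_Phi_lt_one μ hX)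

lemma gm_le_add (μ : Measure Ω) [IsProbabilityMeasure μ] {X Y : Ω → ℝ} (hX : AEMeasurable X μ)
    (hY : AEMeasurable Y μ) {a : ℝ} (ha : 0 ≤ a) (h : ∀ ω, X ω ≤ Y ω + a) :
    gm μ X ≤ gm μ Y + a := by
  rw [← strictMono_Phi.le_iff_le, Phi_gm μ hX]
  set b0 := gm μ Y with hb0
  have hPb0 : Phi b0 = ∫ ω, Phi (Y ω) ∂μ := Phi_gm μ hY
  calc ∫ ω, Phi (X ω) ∂μ
      ≤ ∫ ω, (Phi (b0 + a) + Real.exp (-(a * b0) - a ^ 2 / 2) * (Phi (Y ω) - Phi b0)) ∂μ := by
        refine integral_mono (integrable_Phi_comp μ hX) ?_ ?_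
        · exact (integrable_const _).add (((integrable_Phi_comp μ hY).sub (integrable_const _)).const_mul _)
        · intro ω
          exact (strictMono_Phi.monotone (h ω)).trans (Phi_add_le a (Y ω) b0 ha)
    _ = Phi (b0 + a) := by
        have i1 : Integrable (fun ω => Phi (Y ω)) μ := integrable_Phi_comp μ hY
        have i2 : Integrable (fun ω => Phi (Y ω) - Phi b0) μ := i1.sub (integrable_const _)
        have i3 : Integrable (fun ω => Real.exp (-(a * b0) - a ^ 2 / 2) * (Phi (Y ω) - Phi b0)) μ :=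
          i2.const_mul _
        rw [integral_add (integrable_const _) i3, integral_const_mul,
          integral_sub i1 (integrable_const _)]
        simp [hPb0]

lemma gm_mono (μ : Measure Ω) [IsProbabilityMeasure μ] {X Y : Ω → ℝ} (hX : AEMeasurable X μ)
    (hY : AEMeasurable Y μ) (h : ∀ ω, X ω ≤ Y ω) : gm μ X ≤ gm μ Y := by
  have := gm_le_add μ hX hY le_rfl (by simpa using h)
  simpa using this

lemma abs_gm_sub_le (μ : Measure Ω) [IsProbabilityMeasure μ] {X Y : Ω → ℝ} (hX : AEMeasurable X μ)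
    (hY : AEMeasurable Y μ) {a : ℝ} (h : ∀ ω, |X ω - Y ω| ≤ a) :
    |gm μ X - gm μ Y| ≤ a := by
  obtain ⟨ω0⟩ : Nonempty Ω := nonempty_of_isProbabilityMeasure μ
  have ha : 0 ≤ a := (abs_nonneg _).trans (h ω0)
  rw [abs_le]
  constructor
  · have := gm_le_add μ hY hX ha (fun ω => by have := (abs_le.1 (h ω)).1; linarith)
    linarith
  · have := gm_le_add μ hX hY ha (fun ω => by have := (abs_le.1 (h ω)).2; linarith)
    linarith

end Crest.Agent.Lib.Ehrhard
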