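import Crest.Agent.Lib.Ehrhard.Lip

set_option autoImplicit false
open MeasureTheory ProbabilityTheory Set Filter Topology
open scoped NNReal ENNReal

namespace Crest.Agent.Lib.Ehrhard

section std

variable {E : Type*} [NormedAddCommGroup E] [InnerProductSpace ℝ E] [FiniteDimensional ℝ E]
  [MeasurableSpace E] [BorelSpace E]

/-- if `μ {D = t} = 0` then `E Phi (R (D - t)) → μ {t < D}` as `R → ∞`. -/
lemma tendsto_integral_Phi {Ω : Type*} [MeasurableSpace Ω] (μ : Measure Ω) [IsProbabilityMeasure μ]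
    {D : Ω → ℝ} (hD : Measurable D) {t : ℝ} (h0 : μ {ω | D ω = t} = 0) :
    Tendsto (fun R : ℕ => ∫ ω, Phi ((R:ℝ) * (D ω - t)) ∂μ) atTop (𝓝 (μ.real {ω | t < D ω})) := by
  have h1 : μ.real {ω | t < D ω} = ∫ ω, ({ω | t < D ω}).indicator (fun _ => (1:ℝ)) ω ∂μ := by
    rw [integral_indicator_const (1:ℝ) (measurableSet_lt measurable_const hD)]
    simp
  rw [h1]
  refine tendsto_integral_of_dominated_convergence (fun _ => (1:ℝ)) ?_ (integrable_const _) ?_ ?_
  · intro R
    exact (continuous_Phi.measurable.comp ((hD.sub_const t).const_mul (R:ℝ))).aestronglyMeasurable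
  · intro R
    refine Eventually.of_forall fun ω => ?_
    rw [Real.norm_of_nonneg (Phi_nonneg _)]
    exact (Phi_lt_one _).le
  · have hae : ∀ᵐ ω ∂μ, D ω ≠ t := by
      rw [ae_iff]; simpa using h0
    filter_upwards [hae] with ω hω
    rcases lt_or_gt_of_ne hω with h | h
    · have hn : ω ∉ {ω | t < D ω} := by simp only [mem_ofPred_eq, not_lt]; exact h.le
      rw [indicator_of_notMem hn]
      refine tendsto_Phi_atBot.comp ?_
      exact tendsto_natCast_atTop_atTop.atTop_mul_const_of_neg (sub_neg.2 h)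
    · rw [indicator_of_mem (show ω ∈ {ω | t < D ω} from h)]
      refine tendsto_Phi_atTop.comp ?_
      exact tendsto_natCast_atTop_atTop.atTop_mul_const (sub_pos.2 h)

/-- Ehrhard inequality for superlevel sets of a (midpoint) concave Lipschitz function. -/
theorem ehrhard_levels {D : E → ℝ} {L : ℝ} (hL : ∀ x y, |D x - D y| ≤ L * ‖x - y‖)
    (hD : ∀ x y, (D x + D y) / 2 ≤ D ((2:ℝ)⁻¹ • (x + y)))
    (h0 : ∀ t, stdGaussian E {x | D x = t} = 0) {s t : ℝ}
    (hs0 : 0 < (stdGaussian E).real {x | s < D x}) (hs1 : (stdGaussian E).real {x | s < D x} < 1)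
    (ht0 : 0 < (stdGaussian E).real {x | t < D x}) (ht1 : (stdGaussian E).real {x | t < D x} < 1)
    (hm0 : 0 < (stdGaussian E).real {x | (s + t) / 2 < D x})
    (hm1 : (stdGaussian E).real {x | (s + t) / 2 < D x} < 1) :
    (Psi ((stdGaussian E).real {x | s < D x}) + Psi ((stdGaussian E).real {x | t < D x})) / 2
      ≤ Psi ((stdGaussian E).real {x | (s + t) / 2 < D x}) := by
  have cD := cont_of_lip' hL
  have lim : ∀ u : ℝ, 0 < (stdGaussian E).real {x | u < D x} → (stdGaussian E).real {x | u < D x} < 1 →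
      Tendsto (fun R : ℕ => gm (stdGaussian E) (fun x => (R:ℝ) * (D x - u))) atTop
        (𝓝 (Psi ((stdGaussian E).real {x | u < D x}))) := by
    intro u h1 h2
    exact (continuousAt_Psi h1 h2).tendsto.comp (tendsto_integral_Phi _ cD.measurable (h0 u))
  refine le_of_tendsto_of_tendsto' (((lim s hs0 hs1).add (lim t ht0 ht1)).div_const 2)
    (lim _ hm0 hm1) fun R => ?_
  have lip : ∀ u : ℝ, ∀ x y : E, |(R:ℝ) * (D x - u) - (R:ℝ) * (D y - u)| ≤ ((R:ℝ) * L) * ‖x - y‖ := by
    intro u x y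
    have : (R:ℝ) * (D x - u) - (R:ℝ) * (D y - u) = (R:ℝ) * (D x - D y) := by ring
    rw [this, abs_mul, Nat.abs_cast, mul_assoc]
    exact mul_le_mul_of_nonneg_left (hL x y) (Nat.cast_nonneg _)
  refine ehrhard_std (lip s) (lip t) (lip _) ?_
  intro y z
  have h1 := mul_le_mul_of_nonneg_left (hD y z) (Nat.cast_nonneg (α := ℝ) R)
  have e : ((R:ℝ) * (D y - s) + (R:ℝ) * (D z - t)) / 2
      = (R:ℝ) * ((D y + D z) / 2) - (R:ℝ) * ((s + t) / 2) := by ring
  have e2 : (R:ℝ) * (D ((2:ℝ)⁻¹ • (y + z)) - (s + t) / 2)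
      = (R:ℝ) * D ((2:ℝ)⁻¹ • (y + z)) - (R:ℝ) * ((s + t) / 2) := by ring
  rw [e, e2]
  linarith

/-- tangent line bound: `P(D > t) ≤ Phi (b - t ρ / phi b)`, `b = Psi (P (D > 0))`. -/
theorem tangent_bound {D : E → ℝ} {L : ℝ} (hL : ∀ x y, |D x - D y| ≤ L * ‖x - y‖)
    (hD : ∀ x y, (D x + D y) / 2 ≤ D ((2:ℝ)⁻¹ • (x + y)))
    (h0 : ∀ t, stdGaussian E {x | D x = t} = 0)
    (hp0 : 0 < (stdGaussian E).real {x | 0 < D x}) (hp1 : (stdGaussian E).real {x | 0 < D x} < 1)
    {ρ : ℝ} (hder : HasDerivWithinAt (fun t => (stdGaussian E).real {x | t < D x}) (-ρ) (Ioi 0) 0)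
    {t : ℝ} (ht : 0 ≤ t) :
    (stdGaussian E).real {x | t < D x} ≤ Phi (Psi ((stdGaussian E).real {x | 0 < D x})
      - t * (ρ / phi (Psi ((stdGaussian E).real {x | 0 < D x})))) := by
  set P : ℝ → ℝ := fun t => (stdGaussian E).real {x | t < D x} with hP
  set b : ℝ := Psi (P 0) with hb
  change P t ≤ Phi (b - t * (ρ / phi b))
  rcases eq_or_lt_of_le ht with h | htpos
  · rw [← h]
    simp only [zero_mul, sub_zero]
    rw [hb, Phi_Psi hp0 hp1]
  have hanti : ∀ u v, u ≤ v → P v ≤ P u := by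
    intro u v huv
    exact measureReal_mono (fun x hx => lt_of_le_of_lt huv hx)
  have hPn : 0 ≤ P t := measureReal_nonneg
  rcases eq_or_lt_of_le hPn with hPt | hPt
  · rw [← hPt]; exact Phi_nonneg _
  have hpos : ∀ u, u ≤ t → 0 < P u := fun u hu => hPt.trans_le (hanti u t hu)
  have hlt : ∀ u, 0 ≤ u → P u < 1 := fun u hu => (hanti 0 u hu).trans_lt hp1
  -- iterate the midpoint inequality
  have iter : ∀ k : ℕ, Psi (P t) - b ≤ 2 ^ k * (Psi (P (t / 2 ^ k)) - b) := by
    intro k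
    induction k with
    | zero => simp
    | succ k ih =>
      have hk : (0:ℝ) < 2 ^ k := by positivity
      have u1 : 0 ≤ t / 2 ^ k := by positivity
      have u2 : t / 2 ^ k ≤ t := div_le_self ht (one_le_pow₀ (by norm_num))
      have e : (0 + t / 2 ^ k) / 2 = t / 2 ^ (k + 1) := by rw [pow_succ]; field_simp; ring
      have u3 : 0 ≤ t / 2 ^ (k + 1) := by positivity
      have u4 : t / 2 ^ (k + 1) ≤ t := div_le_self ht (one_le_pow₀ (by norm_num))
      have h1 := ehrhard_levels hL hD h0 (s := 0) (t := t / 2 ^ k) (hpos 0 ht) hp1 (hpos _ u2)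
        (hlt _ u1) (by rw [e]; exact hpos _ u4) (by rw [e]; exact hlt _ u3)
      rw [e] at h1
      change (b + Psi (P (t / 2 ^ k))) / 2 ≤ Psi (P (t / 2 ^ (k + 1))) at h1
      calc Psi (P t) - b ≤ 2 ^ k * (Psi (P (t / 2 ^ k)) - b) := ih
        _ ≤ 2 ^ k * (2 * (Psi (P (t / 2 ^ (k + 1))) - b)) :=
          mul_le_mul_of_nonneg_left (by linarith) hk.le
        _ = 2 ^ (k + 1) * (Psi (P (t / 2 ^ (k + 1))) - b) := by rw [pow_succ]; ring
  -- pass to the limit
  have hder2 : HasDerivWithinAt (fun t => Psi (P t)) ((phi b)⁻¹ * (-ρ)) (Ioi 0) 0 := by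
    have h1 : HasDerivAt Psi (phi (Psi (P 0)))⁻¹ (P 0) := hasDerivAt_Psi hp0 hp1
    exact h1.comp_hasDerivWithinAt (0:ℝ) hder
  have hslope := (hasDerivWithinAt_iff_tendsto_slope' (s := Ioi (0:ℝ)) (x := 0) (by simp)).1 hder2
  have hseq : Tendsto (fun k : ℕ => t / 2 ^ k) atTop (𝓝[Ioi 0] (0:ℝ)) := by
    refine tendsto_nhdsWithin_iff.2 ⟨?_, Eventually.of_forall fun k => ?_⟩
    · have h2 : Tendsto (fun k : ℕ => (2:ℝ) ^ k) atTop atTop := tendsto_pow_atTop_atTop_of_one_lt (by norm_num)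
      exact h2.const_div_atTop t
    · exact div_pos htpos (by positivity)
  have hlim := (hslope.comp hseq).const_mul t
  have hlim2 : Tendsto (fun k : ℕ => 2 ^ k * (Psi (P (t / 2 ^ k)) - b)) atTop
      (𝓝 (t * ((phi b)⁻¹ * (-ρ)))) := by
    refine hlim.congr fun k => ?_
    simp only [Function.comp, slope_def_field, sub_zero]
    field_simp
    rfl
  have h2 : Psi (P t) - b ≤ t * ((phi b)⁻¹ * (-ρ)) := ge_of_tendsto' hlim2 iter
  have h3 : Psi (P t) ≤ b - t * (ρ / phi b) := by
    have : t * ((phi b)⁻¹ * (-ρ)) = -(t * (ρ / phi b)) := by field_simp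
    linarith
  have h4 := strictMono_Phi.monotone h3
  rwa [Phi_Psi hPt (hlt t ht)] at h4

end std

/-- antiderivative of `Phi` -/
lemma hasDerivAt_xPhi (x : ℝ) : HasDerivAt (fun x => x * Phi x + phi x) (Phi x) x :=
  (((hasDerivAt_id x).fun_mul (hasDerivAt_Phi x)).fun_add (hasDerivAt_phi x)).congr_deriv (by
    simp only [id]; ring)

lemma integrable_mul_phi : Integrable (fun x : ℝ => x * phi x) := by
  have h2 := (memLp_id_gaussianReal (μ := 0) (v := 1) 1).integrable (by norm_num)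
  rw [gaussianReal_of_var_ne_zero 0 (by norm_num : (1:ℝ≥0) ≠ 0)] at h2
  rw [integrable_withDensity_iff_integrable_smul' (measurable_gaussianPDF 0 1)
    (Eventually.of_forall fun x => gaussianPDF_lt_top)] at h2
  refine h2.congr (Eventually.of_forall fun x => ?_)
  simp only [toReal_gaussianPDF, ← phi_eq, smul_eq_mul, id]
  ring

lemma integrable_neg_mul_phi : Integrable (fun x : ℝ => -x * phi x) :=
  integrable_mul_phi.neg.congr (Eventually.of_forall fun x => by simp)

lemma tendsto_phi_atBot : Tendsto phi atBot (𝓝 0) := by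
  have h1 : Tendsto (fun x : ℝ => |x|⁻¹) atBot (𝓝 0) :=
    tendsto_inv_atTop_zero.comp tendsto_abs_atBot_atTop
  refine squeeze_zero' (Eventually.of_forall phi_nonneg) ?_ h1
  filter_upwards [eventually_lt_atBot (0:ℝ)] with x hx
  have h2 := abs_mul_phi_le x
  have h3 : 0 < |x| := abs_pos.2 hx.ne
  rw [← one_div, le_div_iff₀ h3]
  linarith

lemma mills {x : ℝ} (hx : x ≤ 0) : -x * Phi x ≤ phi x := by
  have h1 : ∫ t in Iic x, (-t * phi t) = phi x - 0 := by
    refine integral_Iic_of_hasDerivAt_of_tendsto' (fun t _ => hasDerivAt_phi t) ?_ tendsto_phi_atBot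
    exact integrable_neg_mul_phi.integrableOn
  rw [sub_zero] at h1
  rw [← h1]
  unfold Phi
  rw [← integral_const_mul]
  refine setIntegral_mono_on (integrable_phi.integrableOn.const_mul _) ?_ measurableSet_Iic ?_
  · exact integrable_neg_mul_phi.integrableOn
  · intro t ht
    exact mul_le_mul_of_nonneg_right (neg_le_neg ht) (phi_nonneg t)

lemma W_nonneg (x : ℝ) : 0 ≤ x * Phi x + phi x := by
  rcases le_total x 0 with h | h
  · have := mills h; linarith
  · have := mul_nonneg h (Phi_nonneg x); linarith [phi_nonneg x]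

lemma W_le_phi {x : ℝ} (hx : x ≤ 0) : x * Phi x + phi x ≤ phi x := by
  have := mul_nonneg (neg_nonneg.2 hx) (Phi_nonneg x); linarith

lemma tendsto_W_atBot : Tendsto (fun x => x * Phi x + phi x) atBot (𝓝 0) := by
  refine squeeze_zero' (Eventually.of_forall W_nonneg) ?_ tendsto_phi_atBot
  filter_upwards [eventually_le_atBot (0:ℝ)] with x hx using W_le_phi hx

lemma integral_Phi_Ioi {b κ : ℝ} (hκ : 0 < κ) :
    IntegrableOn (fun t => Phi (b - t * κ)) (Ioi 0) ∧
    ∫ t in Ioi (0:ℝ), Phi (b - t * κ) = κ⁻¹ * (b * Phi b + phi b) := by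
  have hd : ∀ t ∈ Ici (0:ℝ), HasDerivAt (fun t => -κ⁻¹ * ((b - t * κ) * Phi (b - t * κ) + phi (b - t * κ)))
      (Phi (b - t * κ)) t := by
    intro t _
    have i1 : HasDerivAt (fun t : ℝ => b - t * κ) (-κ) t := by
      simpa using ((hasDerivAt_id t).mul_const κ).const_sub b
    have i2 := (hasDerivAt_xPhi (b - t * κ)).comp t i1
    refine (i2.const_mul (-κ⁻¹)).congr_deriv ?_
    field_simp
  have ht : Tendsto (fun t => -κ⁻¹ * ((b - t * κ) * Phi (b - t * κ) + phi (b - t * κ))) atTop (𝓝 0) := by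
    have h1 : Tendsto (fun t : ℝ => b - t * κ) atTop atBot := by
      have := (tendsto_id.atTop_mul_const hκ : Tendsto (fun t : ℝ => t * κ) atTop atTop)
      exact tendsto_atBot_add_const_left atTop b (tendsto_neg_atTop_atBot.comp this)
    simpa using (tendsto_W_atBot.comp h1).const_mul (-κ⁻¹)
  have hpos : ∀ t ∈ Ioi (0:ℝ), 0 ≤ Phi (b - t * κ) := fun t _ => Phi_nonneg _
  refine ⟨integrableOn_Ioi_deriv_of_nonneg' hd hpos ht, ?_⟩
  rw [integral_Ioi_of_hasDerivAt_of_nonneg' hd hpos ht]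
  simp

section gain

variable {E : Type*} [NormedAddCommGroup E] [InnerProductSpace ℝ E] [FiniteDimensional ℝ E]
  [MeasurableSpace E] [BorelSpace E]

/-- **Gain bound** (consequence of Ehrhard): if `D` is Lipschitz and concave, without atoms, and
the density of `D` at `0+` is `ρ`, then `ρ E D⁺ ≤ I(p) (I(p) + p Φ⁻¹(p))`. -/
theorem gain_bound {D : E → ℝ} {L : ℝ} (hL : ∀ x y, |D x - D y| ≤ L * ‖x - y‖)
    (hD : ∀ x y, (D x + D y) / 2 ≤ D ((2:ℝ)⁻¹ • (x + y)))
    (h0 : ∀ t, stdGaussian E {x | D x = t} = 0)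
    (hp0 : 0 < (stdGaussian E).real {x | 0 < D x}) (hp1 : (stdGaussian E).real {x | 0 < D x} < 1)
    {ρ : ℝ} (hρ : 0 < ρ)
    (hder : HasDerivWithinAt (fun t => (stdGaussian E).real {x | t < D x}) (-ρ) (Ioi 0) 0) :
    ρ * ∫ x, max (D x) 0 ∂stdGaussian E ≤
      phi (Psi ((stdGaussian E).real {x | 0 < D x})) *
        (Psi ((stdGaussian E).real {x | 0 < D x}) * (stdGaussian E).real {x | 0 < D x}
          + phi (Psi ((stdGaussian E).real {x | 0 < D x}))) := by
  have cD := cont_of_lip' hL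
  set b : ℝ := Psi ((stdGaussian E).real {x | 0 < D x}) with hb
  have hPb : Phi b = (stdGaussian E).real {x | 0 < D x} := Phi_Psi hp0 hp1
  have hint : Integrable (fun x => max (D x) 0) (stdGaussian E) := by
    have i1 : Integrable (fun x : E => |D 0| + L * ‖x‖) (stdGaussian E) :=
      (integrable_const _).add (IsGaussian.integrable_id.norm.const_mul L)
    refine i1.mono' (cD.max continuous_const).aestronglyMeasurable ?_
    refine Eventually.of_forall fun x => ?_
    have h1 := hL x 0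
    rw [sub_zero] at h1
    have h2 : |D x| ≤ |D 0| + L * ‖x‖ := by
      have := abs_add_le (D x - D 0) (D 0)
      rw [sub_add_cancel] at this
      linarith
    rw [Real.norm_of_nonneg (le_max_right _ _)]
    exact max_le ((le_abs_self _).trans h2) ((abs_nonneg _).trans h2)
  have hnn : 0 ≤ᵐ[stdGaussian E] (fun x => max (D x) 0) :=
    Eventually.of_forall fun x => le_max_right _ _
  have hκ : 0 < ρ / phi b := div_pos hρ (phi_pos b)
  obtain ⟨i2, e2⟩ := integral_Phi_Ioi (b := b) hκ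
  have h1 : ∫ x, max (D x) 0 ∂stdGaussian E = ∫ t in Ioi (0:ℝ), (stdGaussian E).real {x | t < D x} := by
    rw [hint.integral_eq_integral_meas_lt hnn]
    refine setIntegral_congr_fun measurableSet_Ioi fun t ht => ?_
    have : {a | t < max (D a) 0} = {x | t < D x} := by
      ext x
      simp only [mem_ofPred_eq, lt_max_iff]
      constructor
      · rintro (h | h)
        · exact h
        · exact absurd h (not_lt.2 (le_of_lt ht))
      · exact Or.inl
    simp only [this]
  have h2 : ∫ x, max (D x) 0 ∂stdGaussian E ≤ (ρ / phi b)⁻¹ * (b * Phi b + phi b) := by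
    rw [h1, ← e2]
    refine integral_mono_of_nonneg (Eventually.of_forall fun t => measureReal_nonneg) i2 ?_
    refine (ae_restrict_iff' measurableSet_Ioi).2 (Eventually.of_forall fun t ht => ?_)
    exact tangent_bound hL hD h0 hp0 hp1 hder (le_of_lt ht)
  calc ρ * ∫ x, max (D x) 0 ∂stdGaussian E ≤ ρ * ((ρ / phi b)⁻¹ * (b * Phi b + phi b)) :=
        mul_le_mul_of_nonneg_left h2 hρ.le
    _ = phi b * (b * (stdGaussian E).real {x | 0 < D x} + phi b) := by
        rw [hPb]; field_simp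

end gain

end Crest.Agent.Lib.Ehrhard
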