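import Crest.Agent.Lib.Ehrhard.Basic

set_option autoImplicit false
open MeasureTheory ProbabilityTheory Set Filter Topology
open scoped NNReal ENNReal

namespace Crest.Agent.Lib.Ehrhard

/-- Gaussian average `E u (y + s G)` -/
noncomputable def hs (u : ℝ → ℝ) (s y : ℝ) : ℝ := ∫ x, u (y + s * x) ∂γ

lemma integrable_abs_id : Integrable (fun x : ℝ => |x|) γ := by
  have := (memLp_id_gaussianReal (μ := 0) (v := 1) 1).integrable (by norm_num)
  exact this.abs

lemma integrable_of_bdd {α : Type*} [MeasurableSpace α] (μ : Measure α) [IsFiniteMeasure μ]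
    {u : α → ℝ} (hu : AEStronglyMeasurable u μ) {C : ℝ} (hb : ∀ x, |u x| ≤ C) : Integrable u μ :=
  Integrable.mono' (integrable_const C) hu (Eventually.of_forall fun x => by simpa using hb x)

lemma hs_hasDerivAt_y {u u' : ℝ → ℝ} {C C' : ℝ} (hu : ∀ x, HasDerivAt u (u' x) x)
    (hc : Continuous u') (hb : ∀ x, |u x| ≤ C) (hb' : ∀ x, |u' x| ≤ C') (s y : ℝ) :
    HasDerivAt (fun y => hs u s y) (hs u' s y) y := by
  have hcu : Continuous u := continuous_iff_continuousAt.2 fun x => (hu x).continuousAt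
  refine (hasDerivAt_integral_of_dominated_loc_of_deriv_le (s := univ)
    (F := fun y x => u (y + s * x)) (F' := fun y x => u' (y + s * x)) (bound := fun _ => C')
    univ_mem ?_ ?_ ?_ ?_ ?_ ?_).2
  · exact Eventually.of_forall fun y => (by fun_prop : Continuous fun x => u (y + s * x)).aestronglyMeasurable
  · exact integrable_of_bdd _ (by fun_prop : Continuous fun x => u (y + s * x)).aestronglyMeasurable
      (fun x => hb _)
  · exact (by fun_prop : Continuous fun x => u' (y + s * x)).aestronglyMeasurable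
  · exact Eventually.of_forall fun x y _ => by simpa using hb' _
  · exact integrable_const _
  · refine Eventually.of_forall fun x y _ => ?_
    simpa using (hu (y + s * x)).comp_add_const y (s * x)

lemma hs_hasDerivAt_s {u u' : ℝ → ℝ} {C C' : ℝ} (hu : ∀ x, HasDerivAt u (u' x) x)
    (hc : Continuous u') (hb : ∀ x, |u x| ≤ C) (hb' : ∀ x, |u' x| ≤ C') (s y : ℝ) :
    HasDerivAt (fun s => hs u s y) (∫ x, x * u' (y + s * x) ∂γ) s := by
  have hcu : Continuous u := continuous_iff_continuousAt.2 fun x => (hu x).continuousAt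
  refine (hasDerivAt_integral_of_dominated_loc_of_deriv_le (s := univ)
    (F := fun s x => u (y + s * x)) (F' := fun s x => x * u' (y + s * x)) (bound := fun x => |x| * C')
    univ_mem ?_ ?_ ?_ ?_ ?_ ?_).2
  · exact Eventually.of_forall fun s => (by fun_prop : Continuous fun x => u (y + s * x)).aestronglyMeasurable
  · exact integrable_of_bdd _ (by fun_prop : Continuous fun x => u (y + s * x)).aestronglyMeasurable
      (fun x => hb _)
  · exact (by fun_prop : Continuous fun x => x * u' (y + s * x)).aestronglyMeasurable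
  · refine Eventually.of_forall fun x s _ => ?_
    rw [norm_mul, Real.norm_eq_abs, Real.norm_eq_abs]
    exact mul_le_mul_of_nonneg_left (hb' _) (abs_nonneg x)
  · exact integrable_abs_id.mul_const _
  · refine Eventually.of_forall fun x s _ => ?_
    have h1 : HasDerivAt (fun s : ℝ => y + s * x) x s := by
      simpa using ((hasDerivAt_id s).mul_const x).const_add y
    exact ((hu (y + s * x)).comp s h1).congr_deriv (by ring)

/-- Stein's lemma -/
lemma stein {v v' : ℝ → ℝ} {C C' : ℝ} (hv : ∀ x, HasDerivAt v (v' x) x)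
    (hc : Continuous v') (hb : ∀ x, |v x| ≤ C) (hb' : ∀ x, |v' x| ≤ C') (s y : ℝ) :
    ∫ x, x * v (y + s * x) ∂γ = s * hs v' s y := by
  have hcv : Continuous v := continuous_iff_continuousAt.2 fun x => (hv x).continuousAt
  have e : ∀ F : ℝ → ℝ, ∫ x, F x ∂γ = ∫ x, phi x * F x := by
    intro F
    rw [integral_gaussianReal_eq_integral_smul (by norm_num : (1:ℝ≥0) ≠ 0), ← phi_eq]
    rfl
  have hw : ∀ x : ℝ, HasDerivAt (fun x => v (y + s * x)) (s * v' (y + s * x)) x := by
    intro x
    have h1 : HasDerivAt (fun x : ℝ => y + s * x) s x := by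
      simpa using ((hasDerivAt_id x).const_mul s).const_add y
    exact ((hv (y + s * x)).comp x h1).congr_deriv (by ring)
  have hphi : ∀ x : ℝ, HasDerivAt (fun x => - phi x) (x * phi x) x := by
    intro x; exact (hasDerivAt_phi x).fun_neg.congr_deriv (by ring)
  have ixp : Integrable (fun x : ℝ => x * phi x) := by
    have h := (memLp_id_gaussianReal (μ := 0) (v := 1) 1).integrable (by norm_num)
    have h2 := h
    rw [gaussianReal_of_var_ne_zero 0 (by norm_num : (1:ℝ≥0) ≠ 0)] at h2
    rw [integrable_withDensity_iff_integrable_smul' (measurable_gaussianPDF 0 1)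
      (Eventually.of_forall fun x => gaussianPDF_lt_top)] at h2
    refine h2.congr (Eventually.of_forall fun x => ?_)
    simp only [toReal_gaussianPDF, ← phi_eq, smul_eq_mul, id]
    ring
  have i1 : Integrable ((fun x => v (y + s * x)) * (fun x => x * phi x)) := by
    refine (ixp.bdd_mul (c := C) (by fun_prop : Continuous fun x => v (y + s * x)).aestronglyMeasurable ?_)
    exact Eventually.of_forall fun x => by simpa using hb _
  have i2 : Integrable ((fun x => s * v' (y + s * x)) * (fun x => - phi x)) := by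
    refine (integrable_phi.neg.bdd_mul (c := |s| * C')
      (by fun_prop : Continuous fun x => s * v' (y + s * x)).aestronglyMeasurable ?_)
    refine Eventually.of_forall fun x => ?_
    rw [norm_mul, Real.norm_eq_abs, Real.norm_eq_abs]
    exact mul_le_mul_of_nonneg_left (hb' _) (abs_nonneg s)
  have i3 : Integrable ((fun x => v (y + s * x)) * (fun x => - phi x)) := by
    refine (integrable_phi.neg.bdd_mul (c := C)
      (by fun_prop : Continuous fun x => v (y + s * x)).aestronglyMeasurable ?_)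
    exact Eventually.of_forall fun x => by simpa using hb _
  have key := integral_mul_deriv_eq_deriv_mul_of_integrable (u := fun x => v (y + s * x))
    (v := fun x => - phi x) (u' := fun x => s * v' (y + s * x)) (v' := fun x => x * phi x)
    (fun x _ => hw x) (fun x _ => hphi x) i1 i2 i3
  rw [e]
  unfold hs
  rw [e, ← integral_const_mul]
  calc ∫ x, phi x * (x * v (y + s * x)) = ∫ x, v (y + s * x) * (x * phi x) := by
        congr 1; ext x; ring
    _ = - ∫ x, s * v' (y + s * x) * (- phi x) := key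
    _ = ∫ x, s * (phi x * v' (y + s * x)) := by
        rw [← integral_neg]; congr 1; ext x; ring

/-- `f` is `C²` with bounded derivatives -/
structure Nice (L M : ℝ) (f f' f'' : ℝ → ℝ) : Prop where
  d1 : ∀ x, HasDerivAt f (f' x) x
  d2 : ∀ x, HasDerivAt f' (f'' x) x
  c2 : Continuous f''
  b1 : ∀ x, |f' x| ≤ L
  b2 : ∀ x, |f'' x| ≤ M

/-- the flow `Psi (E Phi (f (y + s G)))` -/
noncomputable def fl (f : ℝ → ℝ) (s y : ℝ) : ℝ := Psi (hs (fun x => Phi (f x)) s y)

lemma fl_eq_gm (f : ℝ → ℝ) (s y : ℝ) : fl f s y = gm γ (fun x => f (y + s * x)) := rfl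

lemma fl_zero (f : ℝ → ℝ) (y : ℝ) : fl f 0 y = f y := by
  simp [fl, hs]

lemma fl_one_zero (f : ℝ → ℝ) : fl f 1 0 = gm γ f := by
  simp [fl_eq_gm]

lemma hs_Phi_pos {f : ℝ → ℝ} (hf : Continuous f) (s y : ℝ) : 0 < hs (fun x => Phi (f x)) s y :=
  integral_Phi_pos γ (X := fun x => f (y + s * x)) (by fun_prop : Continuous fun x => f (y + s * x)).aemeasurable

lemma hs_Phi_lt_one {f : ℝ → ℝ} (hf : Continuous f) (s y : ℝ) : hs (fun x => Phi (f x)) s y < 1 :=
  integral_Phi_lt_one γ (X := fun x => f (y + s * x)) (by fun_prop : Continuous fun x => f (y + s * x)).aemeasurable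

lemma continuous_fl {f : ℝ → ℝ} (hf : Continuous f) : Continuous (fun p : ℝ × ℝ => fl f p.1 p.2) := by
  have h1 : Continuous (fun p : ℝ × ℝ => hs (fun x => Phi (f x)) p.1 p.2) := by
    have hP := continuous_Phi
    refine continuous_of_dominated (bound := fun _ => 1) ?_ ?_ (integrable_const _) ?_
    · intro p
      exact (by fun_prop : Continuous fun x => Phi (f (p.2 + p.1 * x))).aestronglyMeasurable
    · intro p
      refine Eventually.of_forall fun x => ?_
      rw [Real.norm_of_nonneg (Phi_nonneg _)]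
      exact (Phi_lt_one _).le
    · refine Eventually.of_forall fun x => ?_
      fun_prop
  rw [continuous_iff_continuousAt]
  intro p
  exact ContinuousAt.comp (f := fun p : ℝ × ℝ => hs (fun x => Phi (f x)) p.1 p.2) (g := Psi)
    (continuousAt_Psi (hs_Phi_pos hf _ _) (hs_Phi_lt_one hf _ _)) h1.continuousAt

lemma fl_lip {f : ℝ → ℝ} (hf : Continuous f) {L : ℝ} (hL : ∀ x y, |f x - f y| ≤ L * |x - y|) (s y z : ℝ) :
    |fl f s y - fl f s z| ≤ L * |y - z| := by
  rw [fl_eq_gm, fl_eq_gm]
  refine abs_gm_sub_le γ (by fun_prop : Continuous fun x => f (y + s * x)).aemeasurable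
    (by fun_prop : Continuous fun x => f (z + s * x)).aemeasurable ?_
  intro x
  have := hL (y + s * x) (z + s * x)
  simpa using this

namespace Nice

variable {L M : ℝ} {f f' f'' : ℝ → ℝ}

lemma cont (h : Nice L M f f' f'') : Continuous f :=
  continuous_iff_continuousAt.2 fun x => (h.d1 x).continuousAt

lemma cont' (h : Nice L M f f' f'') : Continuous f' :=
  continuous_iff_continuousAt.2 fun x => (h.d2 x).continuousAt

lemma L_nonneg (h : Nice L M f f' f'') : 0 ≤ L := (abs_nonneg _).trans (h.b1 0)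

lemma lip (h : Nice L M f f' f'') (x y : ℝ) : |f x - f y| ≤ L * |x - y| := by
  have := (convex_univ (𝕜 := ℝ) (E := ℝ)).norm_image_sub_le_of_norm_hasDerivWithin_le (f := f) (f' := f')
    (fun x _ => (h.d1 x).hasDerivWithinAt) (C := L) (fun x _ => by simpa using h.b1 x)
    (mem_univ y) (mem_univ x)
  simpa using this

/-- first derivative of `Phi ∘ f` -/
noncomputable def u1 (f f' : ℝ → ℝ) (x : ℝ) : ℝ := phi (f x) * f' x
/-- second derivative of `Phi ∘ f` -/
noncomputable def u2 (f f' f'' : ℝ → ℝ) (x : ℝ) : ℝ := phi (f x) * (f'' x - f x * f' x ^ 2)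

lemma hu1 (h : Nice L M f f' f'') (x : ℝ) : HasDerivAt (fun x => Phi (f x)) (u1 f f' x) x :=
  (hasDerivAt_Phi (f x)).comp x (h.d1 x)

lemma hu2 (h : Nice L M f f' f'') (x : ℝ) : HasDerivAt (u1 f f') (u2 f f' f'' x) x := by
  have h1 : HasDerivAt (fun x => phi (f x)) (-f x * phi (f x) * f' x) x :=
    (hasDerivAt_phi (f x)).comp x (h.d1 x)
  exact (h1.fun_mul (h.d2 x)).congr_deriv (by unfold u2; ring)

lemma cu1 (h : Nice L M f f' f'') : Continuous (u1 f f') := by
  have := h.cont; have := h.cont'; have := continuous_phi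
  unfold u1; fun_prop

lemma cu2 (h : Nice L M f f' f'') : Continuous (u2 f f' f'') := by
  have := h.cont; have := h.cont'; have := continuous_phi; have := h.c2
  unfold u2; fun_prop

lemma bu0 (x : ℝ) : |Phi (f x)| ≤ 1 := by
  rw [abs_of_nonneg (Phi_nonneg _)]; exact (Phi_lt_one _).le

lemma bu1 (h : Nice L M f f' f'') (x : ℝ) : |u1 f f' x| ≤ L := by
  unfold u1
  rw [abs_mul, abs_of_nonneg (phi_nonneg _)]
  calc _ ≤ 1 * L := mul_le_mul (phi_le_one _) (h.b1 x) (abs_nonneg _) zero_le_one
    _ = L := one_mul L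

lemma bu2 (h : Nice L M f f' f'') (x : ℝ) : |u2 f f' f'' x| ≤ M + L ^ 2 := by
  unfold u2
  have e : phi (f x) * (f'' x - f x * f' x ^ 2) = phi (f x) * f'' x - (f x * phi (f x)) * f' x ^ 2 := by ring
  rw [e]
  have h1 : |phi (f x) * f'' x| ≤ M := by
    rw [abs_mul, abs_of_nonneg (phi_nonneg _)]
    calc _ ≤ 1 * M := mul_le_mul (phi_le_one _) (h.b2 x) (abs_nonneg _) zero_le_one
      _ = M := one_mul M
  have h2 : |f x * phi (f x) * f' x ^ 2| ≤ L ^ 2 := by
    rw [abs_mul, abs_mul, abs_of_nonneg (phi_nonneg _), abs_of_nonneg (sq_nonneg (f' x))]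
    calc |f x| * phi (f x) * f' x ^ 2 ≤ 1 * L ^ 2 :=
          mul_le_mul (abs_mul_phi_le _) (sq_le_sq' (by linarith [abs_le.1 (h.b1 x)]) (abs_le.1 (h.b1 x)).2)
            (sq_nonneg _) zero_le_one
      _ = L ^ 2 := one_mul _
  calc _ ≤ |phi (f x) * f'' x| + |f x * phi (f x) * f' x ^ 2| := abs_sub _ _
    _ ≤ M + L ^ 2 := add_le_add h1 h2

/-- space derivative of the flow -/
noncomputable def fy (f f' : ℝ → ℝ) (s y : ℝ) : ℝ := hs (u1 f f') s y * (phi (fl f s y))⁻¹

/-- second space derivative of the flow -/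
noncomputable def fyy (f f' f'' : ℝ → ℝ) (s y : ℝ) : ℝ :=
  hs (u2 f f' f'') s y * (phi (fl f s y))⁻¹ + fl f s y * fy f f' s y ^ 2

lemma hfy (h : Nice L M f f' f'') (s y : ℝ) : HasDerivAt (fun y => fl f s y) (fy f f' s y) y := by
  have h1 := hs_hasDerivAt_y (fun x => h.hu1 x) h.cu1 (fun x => bu0 (f := f) x) (fun x => h.bu1 x) s y
  have h2 := hasDerivAt_Psi (hs_Phi_pos h.cont s y) (hs_Phi_lt_one h.cont s y)
  exact (h2.comp y h1).congr_deriv (by unfold fy fl; ring)

lemma hfyy (h : Nice L M f f' f'') (s y : ℝ) :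
    HasDerivAt (fun y => fy f f' s y) (fyy f f' f'' s y) y := by
  have h1 := hs_hasDerivAt_y (fun x => h.hu2 x) h.cu2 (fun x => h.bu1 x) (fun x => h.bu2 x) s y
  have h2 : HasDerivAt (fun y => phi (fl f s y)) (-fl f s y * phi (fl f s y) * fy f f' s y) y :=
    (hasDerivAt_phi _).comp y (h.hfy s y)
  have h3 := h2.fun_inv (phi_pos _).ne'
  refine (h1.fun_mul h3).congr_deriv ?_
  have hp : phi (fl f s y) ≠ 0 := (phi_pos _).ne'
  unfold fyy
  have e : fy f f' s y = hs (u1 f f') s y * (phi (fl f s y))⁻¹ := rfl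
  rw [e]
  field_simp

lemma hfs (h : Nice L M f f' f'') (s y : ℝ) : HasDerivAt (fun s => fl f s y)
    (s * (fyy f f' f'' s y - fl f s y * fy f f' s y ^ 2)) s := by
  have h1 := hs_hasDerivAt_s (fun x => h.hu1 x) h.cu1 (fun x => bu0 (f := f) x) (fun x => h.bu1 x) s y
  rw [stein (fun x => h.hu2 x) h.cu2 (fun x => h.bu1 x) (fun x => h.bu2 x) s y] at h1
  have h2 := hasDerivAt_Psi (hs_Phi_pos h.cont s y) (hs_Phi_lt_one h.cont s y)
  exact (h2.comp s h1).congr_deriv (by unfold fyy fl; ring)

lemma bfy (h : Nice L M f f' f'') (s y : ℝ) : |fy f f' s y| ≤ L := by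
  have h1 : LipschitzWith (Real.toNNReal L) (fun y => fl f s y) := by
    refine LipschitzWith.of_dist_le_mul fun x y => ?_
    rw [Real.dist_eq, Real.dist_eq, Real.coe_toNNReal _ h.L_nonneg]
    exact fl_lip h.cont h.lip s x y
  have h2 := norm_deriv_le_of_lipschitz h1 (x₀ := y)
  rw [(h.hfy s y).deriv, Real.coe_toNNReal _ h.L_nonneg] at h2
  simpa using h2

end Nice

end Crest.Agent.Lib.Ehrhard
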