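import Crest.Agent.Lib.Ehrhard.MaxPrin

set_option autoImplicit false
open MeasureTheory ProbabilityTheory Set Filter Topology
open scoped NNReal ENNReal

namespace Crest.Agent.Lib.Ehrhard

/-- moving average -/
noncomputable def av (ε : ℝ) (f : ℝ → ℝ) (y : ℝ) : ℝ := ε⁻¹ * ∫ s in (0:ℝ)..ε, f (y + s)

lemma cont_of_lip {f : ℝ → ℝ} {L : ℝ} (hf : ∀ x y, |f x - f y| ≤ L * |x - y|) : Continuous f := by
  have h : LipschitzWith (Real.toNNReal |L|) f := by
    refine LipschitzWith.of_dist_le_mul fun x y => ?_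
    rw [Real.dist_eq, Real.dist_eq, Real.coe_toNNReal _ (abs_nonneg L)]
    exact (hf x y).trans (mul_le_mul_of_nonneg_right (le_abs_self L) (abs_nonneg _))
  exact h.continuous

lemma av_hasDerivAt {ε : ℝ} {f : ℝ → ℝ} (hf : Continuous f) (y : ℝ) :
    HasDerivAt (av ε f) (ε⁻¹ * (f (y + ε) - f y)) y := by
  have e : av ε f = fun y => ε⁻¹ * ((∫ w in (0:ℝ)..(y + ε), f w) - ∫ w in (0:ℝ)..y, f w) := by
    ext y
    unfold av
    rw [intervalIntegral.integral_comp_add_left, add_zero,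
      intervalIntegral.integral_interval_sub_left (hf.intervalIntegrable _ _) (hf.intervalIntegrable _ _)]
  rw [e]
  have h1 : ∀ y, HasDerivAt (fun y => ∫ w in (0:ℝ)..y, f w) (f y) y := fun y =>
    intervalIntegral.integral_hasDerivAt_right (hf.intervalIntegrable _ _)
      (hf.stronglyMeasurableAtFilter _ _) hf.continuousAt
  exact (((h1 (y + ε)).comp_add_const y ε).fun_sub (h1 y)).const_mul _

lemma av_const {ε : ℝ} (hε : 0 < ε) (c : ℝ) : ε⁻¹ * ∫ _s in (0:ℝ)..ε, c = c := by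
  rw [intervalIntegral.integral_const]
  simp only [sub_zero, smul_eq_mul]
  field_simp

lemma av_lip {ε : ℝ} (hε : 0 < ε) {f : ℝ → ℝ} {L : ℝ} (hf : ∀ x y, |f x - f y| ≤ L * |x - y|) (x y : ℝ) :
    |av ε f x - av ε f y| ≤ L * |x - y| := by
  have hc := cont_of_lip hf
  unfold av
  rw [← mul_sub, ← intervalIntegral.integral_sub
    ((by fun_prop : Continuous fun s => f (x + s)).intervalIntegrable _ _)
    ((by fun_prop : Continuous fun s => f (y + s)).intervalIntegrable _ _), abs_mul,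
    abs_of_pos (inv_pos.2 hε)]
  have h1 : ‖∫ s in (0:ℝ)..ε, (f (x + s) - f (y + s))‖ ≤ (L * |x - y|) * |ε - 0| := by
    refine intervalIntegral.norm_integral_le_of_norm_le_const fun s _ => ?_
    have := hf (x + s) (y + s)
    simpa using this
  rw [Real.norm_eq_abs] at h1
  rw [sub_zero, abs_of_pos hε] at h1
  calc _ ≤ ε⁻¹ * (L * |x - y| * ε) := mul_le_mul_of_nonneg_left h1 (inv_pos.2 hε).le
    _ = _ := by field_simp

lemma av_close {ε : ℝ} (hε : 0 < ε) {f : ℝ → ℝ} {L : ℝ} (hL : 0 ≤ L)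
    (hf : ∀ x y, |f x - f y| ≤ L * |x - y|) (x : ℝ) : |av ε f x - f x| ≤ L * ε := by
  have hc := cont_of_lip hf
  have e : av ε f x - f x = ε⁻¹ * ∫ s in (0:ℝ)..ε, (f (x + s) - f x) := by
    rw [intervalIntegral.integral_sub
      ((by fun_prop : Continuous fun s => f (x + s)).intervalIntegrable _ _)
      (continuous_const.intervalIntegrable _ _), mul_sub, av_const hε]
    rfl
  rw [e, abs_mul, abs_of_pos (inv_pos.2 hε)]
  have h1 : ‖∫ s in (0:ℝ)..ε, (f (x + s) - f x)‖ ≤ (L * ε) * |ε - 0| := by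
    refine intervalIntegral.norm_integral_le_of_norm_le_const fun s hs => ?_
    rw [uIoc_of_le hε.le] at hs
    have := hf (x + s) x
    rw [add_sub_cancel_left, abs_of_pos hs.1] at this
    exact this.trans (mul_le_mul_of_nonneg_left hs.2 hL)
  rw [Real.norm_eq_abs] at h1
  rw [sub_zero, abs_of_pos hε] at h1
  calc _ ≤ ε⁻¹ * (L * ε * ε) := mul_le_mul_of_nonneg_left h1 (inv_pos.2 hε).le
    _ = _ := by field_simp

lemma av_mid {ε : ℝ} (hε : 0 < ε) {f g h : ℝ → ℝ} (hf : Continuous f) (hg : Continuous g)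
    (hh : Continuous h) (H : ∀ y z, (f y + g z) / 2 ≤ h ((y + z) / 2)) (y z : ℝ) :
    (av ε f y + av ε g z) / 2 ≤ av ε h ((y + z) / 2) := by
  unfold av
  rw [← mul_add, mul_div_assoc]
  refine mul_le_mul_of_nonneg_left ?_ (inv_pos.2 hε).le
  rw [← intervalIntegral.integral_add
    ((by fun_prop : Continuous fun s => f (y + s)).intervalIntegrable _ _)
    ((by fun_prop : Continuous fun s => g (z + s)).intervalIntegrable _ _),
    ← intervalIntegral.integral_div]
  refine intervalIntegral.integral_mono_on hε.le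
    ((by fun_prop : Continuous fun s => (f (y + s) + g (z + s)) / 2).intervalIntegrable _ _)
    ((by fun_prop : Continuous fun s => h ((y + z) / 2 + s)).intervalIntegrable _ _) ?_
  intro s _
  have := H (y + s) (z + s)
  have e : (y + s + (z + s)) / 2 = (y + z) / 2 + s := by ring
  rwa [e] at this

lemma nice_av_av {ε : ℝ} (hε : 0 < ε) {f : ℝ → ℝ} {L : ℝ}
    (hf : ∀ x y, |f x - f y| ≤ L * |x - y|) :
    Nice L (2 * L / ε) (av ε (av ε f)) (fun y => ε⁻¹ * (av ε f (y + ε) - av ε f y))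
      (fun y => ε⁻¹ * (ε⁻¹ * (f (y + ε + ε) - f (y + ε)) - ε⁻¹ * (f (y + ε) - f y))) := by
  have hc := cont_of_lip hf
  have hc1 := cont_of_lip (av_lip hε hf)
  have hL0 : 0 ≤ L := by
    have := (abs_nonneg _).trans (hf 1 0)
    simpa using this
  refine ⟨fun x => av_hasDerivAt hc1 x, fun x => ?_, by fun_prop, fun x => ?_, fun x => ?_⟩
  · exact (((av_hasDerivAt hc (x + ε)).comp_add_const x ε).fun_sub (av_hasDerivAt hc x)).const_mul _
  · rw [abs_mul, abs_of_pos (inv_pos.2 hε)]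
    have := av_lip hε hf (x + ε) x
    rw [add_sub_cancel_left, abs_of_pos hε] at this
    calc _ ≤ ε⁻¹ * (L * ε) := mul_le_mul_of_nonneg_left this (inv_pos.2 hε).le
      _ = L := by field_simp
  · have h1 := hf (x + ε + ε) (x + ε)
    have h2 := hf (x + ε) x
    rw [add_sub_cancel_left, abs_of_pos hε] at h1 h2
    rw [← mul_sub, abs_mul, abs_mul, abs_of_pos (inv_pos.2 hε)]
    have h3 : |f (x + ε + ε) - f (x + ε) - (f (x + ε) - f x)| ≤ 2 * (L * ε) :=
      (abs_sub _ _).trans (by linarith)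
    calc _ ≤ ε⁻¹ * (ε⁻¹ * (2 * (L * ε))) :=
          mul_le_mul_of_nonneg_left (mul_le_mul_of_nonneg_left h3 (inv_pos.2 hε).le) (inv_pos.2 hε).le
      _ = 2 * L / ε := by field_simp

/-- one-dimensional functional Ehrhard inequality (midpoint form) for Lipschitz functions -/
theorem ehrhard_lip {f g h : ℝ → ℝ} {L : ℝ} (hf : ∀ x y, |f x - f y| ≤ L * |x - y|)
    (hg : ∀ x y, |g x - g y| ≤ L * |x - y|) (hh : ∀ x y, |h x - h y| ≤ L * |x - y|)
    (H : ∀ y z, (f y + g z) / 2 ≤ h ((y + z) / 2)) :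
    (gm γ f + gm γ g) / 2 ≤ gm γ h := by
  have hL0 : 0 ≤ L := by
    have := (abs_nonneg _).trans (hf 1 0)
    simpa using this
  have cf := cont_of_lip hf
  have cg := cont_of_lip hg
  have ch := cont_of_lip hh
  have key : ∀ ε : ℝ, 0 < ε → (gm γ f + gm γ g) / 2 ≤ gm γ h + 4 * L * ε := by
    intro ε hε
    have cf1 := cont_of_lip (av_lip hε hf)
    have cg1 := cont_of_lip (av_lip hε hg)
    have ch1 := cont_of_lip (av_lip hε hh)
    have cf2 := cont_of_lip (av_lip hε (av_lip hε hf))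
    have cg2 := cont_of_lip (av_lip hε (av_lip hε hg))
    have ch2 := cont_of_lip (av_lip hε (av_lip hε hh))
    have h1 := ehrhard_smooth (nice_av_av hε hf) (nice_av_av hε hg) (nice_av_av hε hh)
      (av_mid hε cf1 cg1 ch1 (av_mid hε cf cg ch H))
    have close : ∀ {f : ℝ → ℝ}, (∀ x y, |f x - f y| ≤ L * |x - y|) →
        |gm γ (av ε (av ε f)) - gm γ f| ≤ 2 * L * ε := by
      intro f hf
      have cf := cont_of_lip hf
      have cf2 := cont_of_lip (av_lip hε (av_lip hε hf))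
      refine abs_gm_sub_le γ cf2.aemeasurable cf.aemeasurable fun x => ?_
      have a1 := av_close hε hL0 (av_lip hε hf) x
      have a2 := av_close hε hL0 hf x
      have : av ε (av ε f) x - f x = (av ε (av ε f) x - av ε f x) + (av ε f x - f x) := by ring
      rw [this]
      exact (abs_add_le _ _).trans (by linarith)
    have c1 := (abs_le.1 (close hf)).1
    have c2 := (abs_le.1 (close hg)).1
    have c3 := (abs_le.1 (close hh)).2
    linarith
  refine le_of_forall_pos_le_add fun δ hδ => ?_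
  have h1 := key (δ / (4 * L + 1)) (by positivity)
  have h2 : 4 * L * (δ / (4 * L + 1)) ≤ δ := by
    rw [← mul_div_assoc, div_le_iff₀ (by positivity)]
    nlinarith
  linarith

/-! ### Tensorisation -/

lemma cont_of_lip' {E : Type*} [SeminormedAddCommGroup E] {f : E → ℝ} {L : ℝ}
    (hf : ∀ x y, |f x - f y| ≤ L * ‖x - y‖) : Continuous f := by
  have h : LipschitzWith (Real.toNNReal |L|) f := by
    refine LipschitzWith.of_dist_le_mul fun x y => ?_
    rw [Real.dist_eq, dist_eq_norm, Real.coe_toNNReal _ (abs_nonneg L)]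
    exact (hf x y).trans (mul_le_mul_of_nonneg_right (le_abs_self L) (norm_nonneg _))
  exact h.continuous

lemma norm_cons_sub_cons_left {n : ℕ} (a b : ℝ) (x : Fin n → ℝ) :
    ‖(Fin.cons a x : Fin (n + 1) → ℝ) - Fin.cons b x‖ ≤ |a - b| := by
  refine (pi_norm_le_iff_of_nonneg (abs_nonneg _)).2 fun i => ?_
  refine Fin.cases ?_ (fun j => ?_) i
  · simp
  · simp

lemma norm_cons_sub_cons_right {n : ℕ} (a : ℝ) (x y : Fin n → ℝ) :
    ‖(Fin.cons a x : Fin (n + 1) → ℝ) - Fin.cons a y‖ ≤ ‖x - y‖ := by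
  refine (pi_norm_le_iff_of_nonneg (norm_nonneg _)).2 fun i => ?_
  refine Fin.cases ?_ (fun j => ?_) i
  · simp
  · simpa using norm_le_pi_norm (x - y) j

lemma continuous_cons {n : ℕ} : Continuous (fun p : ℝ × (Fin n → ℝ) => (Fin.cons p.1 p.2 : Fin (n + 1) → ℝ)) := by
  refine continuous_pi fun i => ?_
  refine Fin.cases ?_ (fun j => ?_) i
  · simpa using continuous_fst
  · simp only [Fin.cons_succ]; fun_prop

lemma integral_pi_succ {n : ℕ} {F : (Fin (n + 1) → ℝ) → ℝ}
    (hF : Integrable (fun p : ℝ × (Fin n → ℝ) => F (Fin.cons p.1 p.2))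
      (γ.prod (Measure.pi fun _ : Fin n => γ))) :
    ∫ x, F x ∂(Measure.pi fun _ : Fin (n + 1) => γ)
      = ∫ x, (∫ a, F (Fin.cons a x) ∂γ) ∂(Measure.pi fun _ : Fin n => γ) := by
  have mp := (measurePreserving_piFinSuccAbove (fun _ : Fin (n + 1) => γ) 0).symm
  have h1 := mp.integral_comp (MeasurableEquiv.measurableEmbedding _) F
  rw [← h1]
  have e : ∀ p : ℝ × (Fin n → ℝ), (MeasurableEquiv.piFinSuccAbove (fun _ : Fin (n + 1) => ℝ) 0).symm p
      = Fin.cons p.1 p.2 := by
    intro p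
    simp [MeasurableEquiv.piFinSuccAbove]
    rfl
  simp only [e]
  exact integral_prod_symm _ hF

lemma gm_pi_succ {n : ℕ} {f : (Fin (n + 1) → ℝ) → ℝ} (hf : Continuous f) :
    gm (Measure.pi fun _ : Fin (n + 1) => γ) f
      = gm (Measure.pi fun _ : Fin n => γ) (fun x => gm γ (fun a => f (Fin.cons a x))) := by
  have h1 : ∀ x : Fin n → ℝ, Phi (gm γ (fun a => f (Fin.cons a x))) = ∫ a, Phi (f (Fin.cons a x)) ∂γ := by
    intro x
    refine Phi_gm γ (Continuous.aemeasurable ?_)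
    exact hf.comp (continuous_cons.comp (by fun_prop : Continuous fun a : ℝ => (a, x)))
  unfold gm at h1 ⊢
  simp only [h1]
  rw [integral_pi_succ]
  refine integrable_Phi_comp _ (Continuous.aemeasurable ?_)
  exact hf.comp continuous_cons

theorem ehrhard_pi (n : ℕ) : ∀ {f g h : (Fin n → ℝ) → ℝ} {L : ℝ},
    (∀ x y, |f x - f y| ≤ L * ‖x - y‖) →
    (∀ x y, |g x - g y| ≤ L * ‖x - y‖) → (∀ x y, |h x - h y| ≤ L * ‖x - y‖) →
    (∀ y z, (f y + g z) / 2 ≤ h ((2:ℝ)⁻¹ • (y + z))) →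
    (gm (Measure.pi fun _ : Fin n => γ) f + gm (Measure.pi fun _ : Fin n => γ) g) / 2
      ≤ gm (Measure.pi fun _ : Fin n => γ) h := by
  induction n with
  | zero =>
    intro f g h L hf hg hh H
    have e : ∀ f : (Fin 0 → ℝ) → ℝ, gm (Measure.pi fun _ : Fin 0 => γ) f = f 0 := by
      intro f
      unfold gm
      rw [Measure.pi_of_empty (fun _ : Fin 0 => γ) 0]
      simp
    rw [e, e, e]
    have := H 0 0
    simpa using this
  | succ n ih =>
    intro f g h L hf hg hh H
    have hL0 : 0 ≤ L := by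
      have := (abs_nonneg _).trans (hf (fun _ => 1) 0)
      have h2 : ‖(fun _ : Fin (n + 1) => (1:ℝ)) - 0‖ = 1 := by
        rw [sub_zero, pi_norm_const]; simp
      rw [h2] at this
      linarith
    have cf := cont_of_lip' hf
    have cg := cont_of_lip' hg
    have ch := cont_of_lip' hh
    have cc : ∀ {f : (Fin (n + 1) → ℝ) → ℝ}, Continuous f → ∀ x : Fin n → ℝ,
        Continuous (fun a : ℝ => f (Fin.cons a x)) := fun hf x =>
      hf.comp (continuous_cons.comp (by fun_prop : Continuous fun a : ℝ => (a, x)))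
    rw [gm_pi_succ cf, gm_pi_succ cg, gm_pi_succ ch]
    have lip1 : ∀ {f : (Fin (n + 1) → ℝ) → ℝ}, (∀ x y, |f x - f y| ≤ L * ‖x - y‖) →
        ∀ x y, |gm γ (fun a => f (Fin.cons a x)) - gm γ (fun a => f (Fin.cons a y))| ≤ L * ‖x - y‖ := by
      intro f hf x y
      have cf := cont_of_lip' hf
      refine abs_gm_sub_le γ (cc cf x).aemeasurable (cc cf y).aemeasurable fun a => ?_
      exact (hf _ _).trans (mul_le_mul_of_nonneg_left (norm_cons_sub_cons_right a x y) hL0)
    have lip0 : ∀ {f : (Fin (n + 1) → ℝ) → ℝ}, (∀ x y, |f x - f y| ≤ L * ‖x - y‖) →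
        ∀ x : Fin n → ℝ, ∀ a b : ℝ, |f (Fin.cons a x) - f (Fin.cons b x)| ≤ L * |a - b| := by
      intro f hf x a b
      exact (hf _ _).trans (mul_le_mul_of_nonneg_left (norm_cons_sub_cons_left a b x) hL0)
    refine ih (lip1 hf) (lip1 hg) (lip1 hh) ?_
    intro y z
    refine ehrhard_lip (lip0 hf y) (lip0 hg z) (lip0 hh _) ?_
    intro a b
    have := H (Fin.cons a y) (Fin.cons b z)
    have e : (2:ℝ)⁻¹ • ((Fin.cons a y : Fin (n + 1) → ℝ) + Fin.cons b z)
        = Fin.cons ((a + b) / 2) ((2:ℝ)⁻¹ • (y + z)) := by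
      ext i
      refine Fin.cases ?_ (fun j => ?_) i
      · simp; ring
      · simp; ring
    rwa [e] at this

/-! ### Standard Gaussian measure -/

section std

variable {E : Type*} [NormedAddCommGroup E] [InnerProductSpace ℝ E] [FiniteDimensional ℝ E]
  [MeasurableSpace E] [BorelSpace E]

/-- Functional Ehrhard inequality (midpoint form) for the standard Gaussian measure. -/
theorem ehrhard_std {f g h : E → ℝ} {L : ℝ} (hf : ∀ x y, |f x - f y| ≤ L * ‖x - y‖)
    (hg : ∀ x y, |g x - g y| ≤ L * ‖x - y‖) (hh : ∀ x y, |h x - h y| ≤ L * ‖x - y‖)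
    (H : ∀ y z, (f y + g z) / 2 ≤ h ((2:ℝ)⁻¹ • (y + z))) :
    (gm (stdGaussian E) f + gm (stdGaussian E) g) / 2 ≤ gm (stdGaussian E) h := by
  let T : (Fin (Module.finrank ℝ E) → ℝ) →ₗ[ℝ] E :=
    { toFun := fun x => ∑ i, x i • stdOrthonormalBasis ℝ E i
      map_add' := fun x y => by simp [add_smul, Finset.sum_add_distrib]
      map_smul' := fun c x => by simp [Finset.smul_sum, smul_smul] }
  let T' := LinearMap.toContinuousLinearMap T
  have hT : ∀ x, T' x = ∑ i, x i • stdOrthonormalBasis ℝ E i := fun x => rfl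
  have hgm : ∀ f : E → ℝ, Continuous f → gm (stdGaussian E) f =
      gm (Measure.pi fun _ : Fin (Module.finrank ℝ E) => γ) (fun x => f (T' x)) := by
    intro f hf
    have h1 := integral_map (μ := Measure.pi fun _ : Fin (Module.finrank ℝ E) => γ)
      (φ := fun x => ∑ i, x i • stdOrthonormalBasis ℝ E i) (f := fun x => Phi (f x))
      (Measurable.aemeasurable (by fun_prop)) (continuous_Phi.comp hf).aestronglyMeasurable
    unfold gm stdGaussian
    rw [h1]
    rfl
  have hL0 : 0 ≤ |L| * ‖T'‖ := by positivity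
  have lip : ∀ {f : E → ℝ}, (∀ x y, |f x - f y| ≤ L * ‖x - y‖) →
      ∀ x y, |f (T' x) - f (T' y)| ≤ (|L| * ‖T'‖) * ‖x - y‖ := by
    intro f hf x y
    calc |f (T' x) - f (T' y)| ≤ L * ‖T' x - T' y‖ := hf _ _
      _ ≤ |L| * ‖T' (x - y)‖ := by
        rw [map_sub]; exact mul_le_mul_of_nonneg_right (le_abs_self L) (norm_nonneg _)
      _ ≤ |L| * (‖T'‖ * ‖x - y‖) := mul_le_mul_of_nonneg_left (T'.le_opNorm _) (abs_nonneg _)
      _ = _ := by ring
  rw [hgm f (cont_of_lip' hf), hgm g (cont_of_lip' hg), hgm h (cont_of_lip' hh)]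
  refine ehrhard_pi _ (lip hf) (lip hg) (lip hh) ?_
  intro y z
  have := H (T' y) (T' z)
  rwa [← map_add, ← map_smul] at this

end std

end Crest.Agent.Lib.Ehrhard
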