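import Crest.Agent.Lib.Ehrhard.Heat

set_option autoImplicit false
open MeasureTheory ProbabilityTheory Set Filter Topology
open scoped NNReal ENNReal

namespace Crest.Agent.Lib.Ehrhard

/-- necessary second order condition at a local minimum -/
lemma second_deriv_nonneg {c c' : ℝ → ℝ} {c'' t0 : ℝ} (h1 : ∀ t, HasDerivAt c (c' t) t)
    (h2 : HasDerivAt c' c'' t0) (hmin : IsLocalMin c t0) : 0 ≤ c'' := by
  by_contra hneg
  push Not at hneg
  have h0 : c' t0 = 0 := hmin.hasDerivAt_eq_zero (h1 t0)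
  have hs := hasDerivAt_iff_tendsto_slope.1 h2
  have ev : ∀ᶠ t in 𝓝[≠] t0, slope c' t0 t < 0 := hs.eventually (gt_mem_nhds hneg)
  have ev2 : ∀ᶠ t in 𝓝[>] t0, slope c' t0 t < 0 :=
    ev.filter_mono (nhdsWithin_mono _ (fun x hx => ne_of_gt hx))
  have ev3 : ∀ᶠ t in 𝓝[>] t0, c t0 ≤ c t := hmin.filter_mono nhdsWithin_le_nhds
  obtain ⟨b, hb, hbb⟩ := (mem_nhdsGT_iff_exists_Ioo_subset (a := t0)).1 (ev2.and ev3)
  have hb' : t0 < b := hb
  set t1 := (t0 + b) / 2 with ht1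
  have h01 : t0 < t1 := by rw [ht1]; linarith
  have h1b : t1 < b := by rw [ht1]; linarith
  obtain ⟨ξ, hξ, hξ2⟩ := exists_hasDerivAt_eq_slope c c' h01
    (fun x _ => (h1 x).continuousAt.continuousWithinAt) (fun x _ => h1 x)
  have hc1 : c t0 ≤ c t1 := (hbb ⟨h01, h1b⟩).2
  have hξ3 : slope c' t0 ξ < 0 := (hbb ⟨hξ.1, hξ.2.trans h1b⟩).1
  rw [slope_def_field, h0, sub_zero] at hξ3
  have hpos : 0 < ξ - t0 := sub_pos.2 hξ.1
  have h4 : c' ξ < 0 := by
    by_contra h5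
    push Not at h5
    exact absurd hξ3 (not_lt.2 (div_nonneg h5 hpos.le))
  rw [hξ2] at h4
  exact absurd h4 (not_lt.2 (div_nonneg (sub_nonneg.2 hc1) (sub_pos.2 h01).le))

/-- derivative at a left-minimum is nonpositive -/
lemma deriv_nonpos_of_left_min {c : ℝ → ℝ} {c' s : ℝ} (h1 : HasDerivAt c c' s) (hs : 0 < s)
    (hmin : ∀ t ∈ Icc 0 s, c s ≤ c t) : c' ≤ 0 := by
  have h2 := hasDerivAt_iff_tendsto_slope.1 h1
  have h3 : Tendsto (slope c s) (𝓝[<] s) (𝓝 c') :=
    h2.mono_left (nhdsWithin_mono _ (fun x hx => ne_of_lt hx))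
  refine le_of_tendsto h3 ?_
  have : Ioo 0 s ∈ 𝓝[<] s := Ioo_mem_nhdsLT hs
  filter_upwards [this] with t ht
  rw [slope_def_field]
  have := hmin t ⟨ht.1.le, ht.2.le⟩
  exact div_nonpos_of_nonneg_of_nonpos (sub_nonneg.2 this) (sub_nonpos.2 ht.2.le)

section

variable {L M : ℝ} {f f' f'' g g' g'' h h' h'' : ℝ → ℝ}

/-- linear growth bound -/
lemma exists_growth (hf : Nice L M f f' f'') : ∃ A, 0 ≤ A ∧ ∀ s ∈ Icc (0:ℝ) 1, ∀ y, |fl f s y| ≤ A + L * |y| := by
  have hc : ContinuousOn (fun s => |fl f s 0|) (Icc (0:ℝ) 1) := by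
    have := continuous_fl hf.cont
    exact (this.comp (continuous_id.prodMk continuous_const)).abs.continuousOn
  obtain ⟨s0, hs0, hmax⟩ := isCompact_Icc.exists_isMaxOn (nonempty_Icc.2 zero_le_one) hc
  refine ⟨|fl f s0 0|, abs_nonneg _, fun s hs y => ?_⟩
  have h1 := fl_lip hf.cont hf.lip s y 0
  have h2 : |fl f s 0| ≤ |fl f s0 0| := hmax hs
  have h3 : |fl f s y| ≤ |fl f s y - fl f s 0| + |fl f s 0| := by
    simpa using abs_add_le (fl f s y - fl f s 0) (fl f s 0)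
  simp only [sub_zero] at h1
  linarith

/-- the algebraic heart of the maximum principle -/
lemma alg_core {A L K q y z F G H Fy Gy p Fyy Gyy Hyy : ℝ} (hA : 0 ≤ A) (hL : 0 ≤ L) (hq : 0 < q)
    (hK : K = 5 + 8 * L * (A + L)) (hF : |F| ≤ A + L * |y|) (hG : |G| ≤ A + L * |z|)
    (hFy : |Fy| ≤ L) (hGy : |Gy| ≤ L) (hp : |p| ≤ L)
    (e1 : Fy = p + 4 * q * y) (e2 : Gy = p + 4 * q * z)
    (hneg : H - F / 2 - G / 2 ≤ 0) (h2 : 0 ≤ Hyy / 4 - Fyy / 2 + Hyy / 2 + Hyy / 4 - Gyy / 2 + 4 * q)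
    (ht : (Hyy - H * p ^ 2) - (Fyy - F * Fy ^ 2) / 2 - (Gyy - G * Gy ^ 2) / 2
      + q * K * (1 + y ^ 2 + z ^ 2) ≤ 0) : False := by
  have key : ∀ F Fy y : ℝ, |F| ≤ A + L * |y| → |Fy| ≤ L → Fy = p + 4 * q * y →
      -(4 * q * L * (A + L) * (1 + y ^ 2)) ≤ F * (Fy ^ 2 - p ^ 2) / 2 := by
    intro F Fy y hF hFy e
    have h1 : F * (Fy ^ 2 - p ^ 2) / 2 = 2 * q * (F * y * (Fy + p)) := by
      have : Fy ^ 2 - p ^ 2 = 4 * q * y * (Fy + p) := by rw [e]; ring
      rw [this]; ring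
    rw [h1]
    have h2 : |F * y * (Fy + p)| ≤ (A + L * |y|) * |y| * (2 * L) := by
      rw [abs_mul, abs_mul]
      have h3 : |Fy + p| ≤ 2 * L := (abs_add_le _ _).trans (by linarith)
      exact mul_le_mul (mul_le_mul_of_nonneg_right hF (abs_nonneg y)) h3 (abs_nonneg _)
        (by positivity)
    have h4 : (A + L * |y|) * |y| ≤ (A + L) * (1 + y ^ 2) := by
      have h5 : |y| ≤ 1 + y ^ 2 := by
        have := sq_abs y
        nlinarith [sq_nonneg (|y| - 1), abs_nonneg y]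
      have h6 : |y| * |y| = y ^ 2 := by rw [← sq, sq_abs]
      nlinarith [mul_le_mul_of_nonneg_left h5 hA, abs_nonneg y, sq_nonneg y]
    have h7 : |F * y * (Fy + p)| ≤ (A + L) * (1 + y ^ 2) * (2 * L) :=
      h2.trans (mul_le_mul_of_nonneg_right h4 (by positivity))
    have h8 := (abs_le.1 h7).1
    nlinarith [mul_le_mul_of_nonneg_left h8 (by positivity : (0:ℝ) ≤ 2 * q)]
  have k1 := key F Fy y hF hFy e1
  have k2 := key G Gy z hG hGy e2
  have k3 : p ^ 2 * (H - F / 2 - G / 2) ≤ 0 := mul_nonpos_of_nonneg_of_nonpos (sq_nonneg p) hneg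
  have k4 : 0 ≤ q * L * (A + L) * y ^ 2 := by positivity
  have k5 : 0 ≤ q * L * (A + L) * z ^ 2 := by positivity
  have k6 : 0 ≤ q * L * (A + L) := by positivity
  have k7 : 0 ≤ q * y ^ 2 := by positivity
  have k8 : 0 ≤ q * z ^ 2 := by positivity
  rw [hK] at ht
  nlinarith

theorem ehrhard_smooth (hf : Nice L M f f' f'') (hg : Nice L M g g' g'') (hh : Nice L M h h' h'')
    (H : ∀ y z, (f y + g z) / 2 ≤ h ((y + z) / 2)) :
    (gm γ f + gm γ g) / 2 ≤ gm γ h := by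
  by_contra hcon
  push Not at hcon
  obtain ⟨Af, hAf0, hAf⟩ := exists_growth hf
  obtain ⟨Ag, hAg0, hAg⟩ := exists_growth hg
  obtain ⟨Ah, hAh0, hAh⟩ := exists_growth hh
  have hL := hf.L_nonneg
  set A := Af + Ag + Ah with hA
  have hA0 : 0 ≤ A := by positivity
  have gf : ∀ s ∈ Icc (0:ℝ) 1, ∀ y, |fl f s y| ≤ A + L * |y| := fun s hs y =>
    (hAf s hs y).trans (by rw [hA]; linarith)
  have gg : ∀ s ∈ Icc (0:ℝ) 1, ∀ y, |fl g s y| ≤ A + L * |y| := fun s hs y =>
    (hAg s hs y).trans (by rw [hA]; linarith)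
  have gh : ∀ s ∈ Icc (0:ℝ) 1, ∀ y, |fl h s y| ≤ A + L * |y| := fun s hs y =>
    (hAh s hs y).trans (by rw [hA]; linarith)
  set K : ℝ := 5 + 8 * L * (A + L) with hK
  have hK0 : 0 < K := by positivity
  set δ : ℝ := (gm γ f + gm γ g) / 2 - gm γ h with hδ
  have hδ0 : 0 < δ := sub_pos.2 hcon
  set ε : ℝ := δ / (2 * Real.exp (K / 2)) with hε
  have hε0 : 0 < ε := by positivity
  -- the comparison function
  let C : ℝ → ℝ → ℝ → ℝ := fun s y z =>
    fl h s ((y + z) / 2) - fl f s y / 2 - fl g s z / 2 + ε * Real.exp (K * s ^ 2 / 2) * (1 + y ^ 2 + z ^ 2)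
  have hCcont : Continuous (fun p : ℝ × ℝ × ℝ => C p.1 p.2.1 p.2.2) := by
    have c1 : Continuous (fun p : ℝ × ℝ × ℝ => fl h p.1 ((p.2.1 + p.2.2) / 2)) :=
      (continuous_fl hh.cont).comp (f := fun p : ℝ × ℝ × ℝ => (p.1, (p.2.1 + p.2.2) / 2)) (by fun_prop)
    have c2 : Continuous (fun p : ℝ × ℝ × ℝ => fl f p.1 p.2.1) :=
      (continuous_fl hf.cont).comp (f := fun p : ℝ × ℝ × ℝ => (p.1, p.2.1)) (by fun_prop)
    have c3 : Continuous (fun p : ℝ × ℝ × ℝ => fl g p.1 p.2.2) :=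
      (continuous_fl hg.cont).comp (f := fun p : ℝ × ℝ × ℝ => (p.1, p.2.2)) (by fun_prop)
    exact ((c1.sub (c2.div_const 2)).sub (c3.div_const 2)).add (by fun_prop)
  -- at time 1 it is negative somewhere
  have hC1 : C 1 0 0 < 0 := by
    have e1 : C 1 0 0 = -δ + ε * Real.exp (K / 2) := by
      simp only [C, add_zero, zero_div, fl_one_zero]
      rw [hδ]; ring_nf
    have e2 : ε * Real.exp (K / 2) = δ / 2 := by
      rw [hε]; field_simp
    rw [e1, e2]; linarith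
  -- at time 0 it is positive
  have hC0 : ∀ y z, 0 < C 0 y z := by
    intro y z
    have e1 : C 0 y z = (h ((y + z) / 2) - (f y + g z) / 2) + ε * (1 + y ^ 2 + z ^ 2) := by
      simp only [C, fl_zero]
      simp
      ring
    rw [e1]
    have := H y z
    have h2 : 0 < ε * (1 + y ^ 2 + z ^ 2) := by positivity
    linarith
  -- far away it is nonnegative
  set R : ℝ := (2 * A + 2 * L) / ε + 1 with hR
  have hR1 : 1 ≤ R := by
    have : 0 ≤ (2 * A + 2 * L) / ε := by positivity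
    linarith
  have hfar : ∀ s ∈ Icc (0:ℝ) 1, ∀ y z, (R ≤ |y| ∨ R ≤ |z|) → 0 ≤ C s y z := by
    intro s hs y z hyz
    set m := max |y| |z| with hm
    have hmR : R ≤ m := by
      rcases hyz with h | h
      · exact h.trans (le_max_left _ _)
      · exact h.trans (le_max_right _ _)
    have hy : |y| ≤ m := le_max_left _ _
    have hz : |z| ≤ m := le_max_right _ _
    have hm2 : m ^ 2 ≤ y ^ 2 + z ^ 2 := by
      rcases max_cases |y| |z| with h | h
      · rw [hm, h.1, sq_abs]; nlinarith [sq_nonneg z]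
      · rw [hm, h.1, sq_abs]; nlinarith [sq_nonneg y]
    have b1 : -(A + L * m) ≤ fl h s ((y + z) / 2) := by
      have h1 := (abs_le.1 (gh s hs ((y + z) / 2))).1
      have h2 : |(y + z) / 2| ≤ m := by
        rw [abs_div, abs_two]
        have := abs_add_le y z
        linarith
      nlinarith [mul_le_mul_of_nonneg_left h2 hL]
    have b2 : fl f s y ≤ A + L * m :=
      ((abs_le.1 (gf s hs y)).2).trans (by nlinarith [mul_le_mul_of_nonneg_left hy hL])
    have b3 : fl g s z ≤ A + L * m :=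
      ((abs_le.1 (gg s hs z)).2).trans (by nlinarith [mul_le_mul_of_nonneg_left hz hL])
    have b4 : ε * (1 + y ^ 2 + z ^ 2) ≤ ε * Real.exp (K * s ^ 2 / 2) * (1 + y ^ 2 + z ^ 2) := by
      have : 1 ≤ Real.exp (K * s ^ 2 / 2) := Real.one_le_exp (by positivity)
      have h2 : ε ≤ ε * Real.exp (K * s ^ 2 / 2) := by nlinarith
      exact mul_le_mul_of_nonneg_right h2 (by positivity)
    have b5 : 2 * A + 2 * L * m ≤ ε * m ^ 2 := by
      have h1 : (2 * A + 2 * L) / ε ≤ m := by linarith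
      rw [div_le_iff₀ hε0] at h1
      have h1' : 1 ≤ m := hR1.trans hmR
      have h2 : (2 * A + 2 * L) * m ≤ m * ε * m := mul_le_mul_of_nonneg_right h1 (by linarith)
      have h3 : 2 * A ≤ 2 * A * m := by nlinarith
      nlinarith
    have b6 : ε * m ^ 2 ≤ ε * (y ^ 2 + z ^ 2) := mul_le_mul_of_nonneg_left hm2 hε0.le
    simp only [C]
    nlinarith
  -- minimise over the compact box
  have hcomp : IsCompact ((Icc (0:ℝ) 1) ×ˢ ((Icc (-R) R) ×ˢ (Icc (-R) R))) :=
    isCompact_Icc.prod (isCompact_Icc.prod isCompact_Icc)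
  have h00 : ((1:ℝ), (0:ℝ), (0:ℝ)) ∈ ((Icc (0:ℝ) 1) ×ˢ ((Icc (-R) R) ×ˢ (Icc (-R) R))) := by
    refine ⟨⟨zero_le_one, le_refl 1⟩, ⟨?_, ?_⟩, ⟨?_, ?_⟩⟩ <;> simp only <;> linarith
  obtain ⟨⟨s, y, z⟩, hmem, hmin⟩ := hcomp.exists_isMinOn ⟨_, h00⟩ hCcont.continuousOn
  have hmin' : ∀ s' ∈ Icc (0:ℝ) 1, ∀ y' ∈ Icc (-R) R, ∀ z' ∈ Icc (-R) R, C s y z ≤ C s' y' z' :=
    fun s' hs' y' hy' z' hz' => hmin (a := (s', y', z')) ⟨hs', hy', hz'⟩
  have hs : s ∈ Icc (0:ℝ) 1 := hmem.1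
  have hyR : y ∈ Icc (-R) R := hmem.2.1
  have hzR : z ∈ Icc (-R) R := hmem.2.2
  have hCneg : C s y z < 0 := (hmin' 1 h00.1 0 h00.2.1 0 h00.2.2).trans_lt hC1
  have hs0 : 0 < s := by
    rcases eq_or_lt_of_le hs.1 with h0 | h0
    · exfalso; rw [← h0] at hCneg; exact absurd (hC0 y z) (not_lt.2 hCneg.le)
    · exact h0
  have hylt : |y| < R := by
    by_contra h1; push Not at h1
    exact absurd hCneg (not_lt.2 (hfar s hs y z (Or.inl h1)))
  have hzlt : |z| < R := by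
    by_contra h1; push Not at h1
    exact absurd hCneg (not_lt.2 (hfar s hs y z (Or.inr h1)))
  have nhy : ∀ᶠ t in 𝓝 (0:ℝ), y + t ∈ Icc (-R) R := by
    have h1 : Tendsto (fun t : ℝ => y + t) (𝓝 0) (𝓝 (y + 0)) := (continuous_const.add continuous_id).tendsto 0
    rw [add_zero] at h1
    exact h1.eventually (Icc_mem_nhds (abs_lt.1 hylt).1 (abs_lt.1 hylt).2)
  have nhz : ∀ᶠ t in 𝓝 (0:ℝ), z + t ∈ Icc (-R) R := by
    have h1 : Tendsto (fun t : ℝ => z + t) (𝓝 0) (𝓝 (z + 0)) := (continuous_const.add continuous_id).tendsto 0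
    rw [add_zero] at h1
    exact h1.eventually (Icc_mem_nhds (abs_lt.1 hzlt).1 (abs_lt.1 hzlt).2)
  set q : ℝ := ε * Real.exp (K * s ^ 2 / 2) with hq
  have hq0 : 0 < q := by positivity
  set p := Nice.fy h h' s ((y + z) / 2) with hp
  set Fy := Nice.fy f f' s y with hFy
  set Gy := Nice.fy g g' s z with hGy
  -- derivative in `y`
  have e1 : p / 2 - Fy / 2 + 2 * q * y = 0 := by
    have hd : HasDerivAt (fun t => C s (y + t) z) (p / 2 - Fy / 2 + 2 * q * y) 0 := by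
      have i1 : HasDerivAt (fun t : ℝ => (y + t + z) / 2) (1 / 2) 0 :=
        (((hasDerivAt_id (0:ℝ)).const_add y).add_const z).div_const 2
      have i2 : HasDerivAt (fun t : ℝ => y + t) 1 0 := (hasDerivAt_id (0:ℝ)).const_add y
      have d1 : HasDerivAt (fun t : ℝ => fl h s ((y + t + z) / 2)) (p * (1 / 2)) 0 := by
        refine HasDerivAt.comp (0:ℝ) (h₂ := fun w => fl h s w) ?_ i1
        simpa using hh.hfy s ((y + z) / 2)
      have d2 : HasDerivAt (fun t : ℝ => fl f s (y + t)) (Fy * 1) 0 := by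
        refine HasDerivAt.comp (0:ℝ) (h₂ := fun w => fl f s w) ?_ i2
        simpa using hf.hfy s y
      have d3 : HasDerivAt (fun t : ℝ => 1 + (y + t) ^ 2 + z ^ 2) (2 * y) 0 := by
        refine (((i2.fun_pow 2).const_add 1).add_const (z ^ 2)).congr_deriv ?_
        simp
      refine (((d1.fun_sub (d2.div_const 2)).sub_const (fl g s z / 2)).fun_add (d3.const_mul q)).congr_deriv ?_
      ring
    have hm : IsLocalMin (fun t => C s (y + t) z) 0 := by
      filter_upwards [nhy] with t ht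
      simpa using hmin' s hs (y + t) ht z hzR
    exact hm.hasDerivAt_eq_zero hd
  have e2 : p / 2 - Gy / 2 + 2 * q * z = 0 := by
    have hd : HasDerivAt (fun t => C s y (z + t)) (p / 2 - Gy / 2 + 2 * q * z) 0 := by
      have i1 : HasDerivAt (fun t : ℝ => (y + (z + t)) / 2) (1 / 2) 0 :=
        (((hasDerivAt_id (0:ℝ)).const_add z).const_add y).div_const 2
      have i2 : HasDerivAt (fun t : ℝ => z + t) 1 0 := (hasDerivAt_id (0:ℝ)).const_add z
      have d1 : HasDerivAt (fun t : ℝ => fl h s ((y + (z + t)) / 2)) (p * (1 / 2)) 0 := by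
        refine HasDerivAt.comp (0:ℝ) (h₂ := fun w => fl h s w) ?_ i1
        simpa using hh.hfy s ((y + z) / 2)
      have d2 : HasDerivAt (fun t : ℝ => fl g s (z + t)) (Gy * 1) 0 := by
        refine HasDerivAt.comp (0:ℝ) (h₂ := fun w => fl g s w) ?_ i2
        simpa using hg.hfy s z
      have d3 : HasDerivAt (fun t : ℝ => 1 + y ^ 2 + (z + t) ^ 2) (2 * z) 0 := by
        refine ((i2.fun_pow 2).const_add (1 + y ^ 2)).congr_deriv ?_
        simp
      refine (((d1.sub_const (fl f s y / 2)).fun_sub (d2.div_const 2)).fun_add (d3.const_mul q)).congr_deriv ?_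
      ring
    have hm : IsLocalMin (fun t => C s y (z + t)) 0 := by
      filter_upwards [nhz] with t ht
      simpa using hmin' s hs y hyR (z + t) ht
    exact hm.hasDerivAt_eq_zero hd
  -- second derivative along the diagonal
  set Hyy := Nice.fyy h h' h'' s ((y + z) / 2) with hHyy
  set Fyy := Nice.fyy f f' f'' s y with hFyy
  set Gyy := Nice.fyy g g' g'' s z with hGyy
  have e3 : 0 ≤ Hyy - Fyy / 2 - Gyy / 2 + 4 * q := by
    let c' : ℝ → ℝ := fun t => Nice.fy h h' s ((y + z) / 2 + t) - Nice.fy f f' s (y + t) / 2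
      - Nice.fy g g' s (z + t) / 2 + q * (2 * (y + t) + 2 * (z + t))
    have i1 : ∀ t : ℝ, HasDerivAt (fun t : ℝ => (y + z) / 2 + t) 1 t :=
      fun t => (hasDerivAt_id t).const_add _
    have i2 : ∀ t : ℝ, HasDerivAt (fun t : ℝ => y + t) 1 t := fun t => (hasDerivAt_id t).const_add _
    have i3 : ∀ t : ℝ, HasDerivAt (fun t : ℝ => z + t) 1 t := fun t => (hasDerivAt_id t).const_add _
    have hc1 : ∀ t, HasDerivAt (fun t => C s (y + t) (z + t)) (c' t) t := by
      intro t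
      have d1 : HasDerivAt (fun t : ℝ => fl h s ((y + z) / 2 + t)) (Nice.fy h h' s ((y + z) / 2 + t) * 1) t :=
        HasDerivAt.comp t (h₂ := fun w => fl h s w) (hh.hfy s _) (i1 t)
      have d2 : HasDerivAt (fun t : ℝ => fl f s (y + t)) (Nice.fy f f' s (y + t) * 1) t :=
        HasDerivAt.comp t (h₂ := fun w => fl f s w) (hf.hfy s _) (i2 t)
      have d3 : HasDerivAt (fun t : ℝ => fl g s (z + t)) (Nice.fy g g' s (z + t) * 1) t :=
        HasDerivAt.comp t (h₂ := fun w => fl g s w) (hg.hfy s _) (i3 t)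
      have d4 : HasDerivAt (fun t : ℝ => 1 + (y + t) ^ 2 + (z + t) ^ 2) (2 * (y + t) + 2 * (z + t)) t := by
        refine ((((i2 t).fun_pow 2).const_add 1).fun_add ((i3 t).fun_pow 2)).congr_deriv ?_
        simp
      have e : (fun t => C s (y + t) (z + t)) = fun t => fl h s ((y + z) / 2 + t) - fl f s (y + t) / 2
          - fl g s (z + t) / 2 + q * (1 + (y + t) ^ 2 + (z + t) ^ 2) := by
        funext t
        have : (y + t + (z + t)) / 2 = (y + z) / 2 + t := by ring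
        simp only [C, this, hq]
      rw [e]
      refine (((d1.fun_sub (d2.div_const 2)).fun_sub (d3.div_const 2)).fun_add (d4.const_mul q)).congr_deriv ?_
      simp only [c']
      ring
    have hc2 : HasDerivAt c' (Hyy - Fyy / 2 - Gyy / 2 + 4 * q) 0 := by
      have d1 : HasDerivAt (fun t : ℝ => Nice.fy h h' s ((y + z) / 2 + t)) (Hyy * 1) 0 := by
        refine HasDerivAt.comp (0:ℝ) (h₂ := fun w => Nice.fy h h' s w) ?_ (i1 0)
        simpa using hh.hfyy s ((y + z) / 2)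
      have d2 : HasDerivAt (fun t : ℝ => Nice.fy f f' s (y + t)) (Fyy * 1) 0 := by
        refine HasDerivAt.comp (0:ℝ) (h₂ := fun w => Nice.fy f f' s w) ?_ (i2 0)
        simpa using hf.hfyy s y
      have d3 : HasDerivAt (fun t : ℝ => Nice.fy g g' s (z + t)) (Gyy * 1) 0 := by
        refine HasDerivAt.comp (0:ℝ) (h₂ := fun w => Nice.fy g g' s w) ?_ (i3 0)
        simpa using hg.hfyy s z
      have d4 : HasDerivAt (fun t : ℝ => 2 * (y + t) + 2 * (z + t)) 4 0 := by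
        refine (((i2 0).const_mul 2).fun_add ((i3 0).const_mul 2)).congr_deriv ?_
        norm_num
      refine (((d1.fun_sub (d2.div_const 2)).fun_sub (d3.div_const 2)).fun_add (d4.const_mul q)).congr_deriv ?_
      ring
    have hm : IsLocalMin (fun t => C s (y + t) (z + t)) 0 := by
      filter_upwards [nhy, nhz] with t ht ht'
      simpa using hmin' s hs (y + t) ht (z + t) ht'
    exact second_deriv_nonneg hc1 hc2 hm
  -- time derivative
  set F0 := fl f s y with hF0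
  set G0 := fl g s z with hG0
  set H0 := fl h s ((y + z) / 2) with hH0
  have e4 : s * ((Hyy - H0 * p ^ 2) - (Fyy - F0 * Fy ^ 2) / 2 - (Gyy - G0 * Gy ^ 2) / 2
      + q * K * (1 + y ^ 2 + z ^ 2)) ≤ 0 := by
    have hd : HasDerivAt (fun t => C t y z) (s * ((Hyy - H0 * p ^ 2) - (Fyy - F0 * Fy ^ 2) / 2
        - (Gyy - G0 * Gy ^ 2) / 2 + q * K * (1 + y ^ 2 + z ^ 2))) s := by
      have d1 := hh.hfs s ((y + z) / 2)
      have d2 := hf.hfs s y
      have d3 := hg.hfs s z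
      have d4 : HasDerivAt (fun t : ℝ => K * t ^ 2 / 2) (K * s) s := by
        refine (((hasDerivAt_pow 2 s).const_mul K).div_const 2).congr_deriv ?_
        norm_num; ring
      have d5 := ((d4.exp).const_mul ε).mul_const (1 + y ^ 2 + z ^ 2)
      refine (((d1.fun_sub (d2.div_const 2)).fun_sub (d3.div_const 2)).fun_add d5).congr_deriv ?_
      rw [hq]
      ring
    refine deriv_nonpos_of_left_min hd hs0 ?_
    intro t ht
    exact hmin' t ⟨ht.1, ht.2.trans hs.2⟩ y hyR z hzR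
  have e5 : (Hyy - H0 * p ^ 2) - (Fyy - F0 * Fy ^ 2) / 2 - (Gyy - G0 * Gy ^ 2) / 2
      + q * K * (1 + y ^ 2 + z ^ 2) ≤ 0 := by
    by_contra h1
    push Not at h1
    exact absurd (mul_pos hs0 h1) (not_lt.2 e4)
  have e6 : H0 - F0 / 2 - G0 / 2 ≤ 0 := by
    have h1 : C s y z = H0 - F0 / 2 - G0 / 2 + q * (1 + y ^ 2 + z ^ 2) := rfl
    have h2 : 0 < q * (1 + y ^ 2 + z ^ 2) := by positivity
    linarith
  refine alg_core hA0 hL hq0 hK (gf s hs y) (gg s hs z) (hf.bfy s y) (hg.bfy s z) (hh.bfy s ((y + z) / 2))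
    (p := p) (Fy := Fy) (Gy := Gy) (Fyy := Fyy) (Gyy := Gyy) (Hyy := Hyy) (H := H0) ?_ ?_ e6 ?_ e5
  · linarith
  · linarith
  · linarith

end

end Crest.Agent.Lib.Ehrhard
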